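import Vale.Agent.P184.H38C.Core0
import Vale.Agent.P184.Bdl.B4

/-!
# The core field for elements of infinite order with amenable centralizer
-/

namespace Vale.Agent.P184.H38C

open Vale.Agent.P184.Un

universe u

/-- Slow maps on the centralizer. -/
theorem slow_cen {G : Type u} [Group G] (x : G) (hx : ¬ IsOfFinOrder x)
    (hC : CoAmenable (Cen x) ⊥) {δ : ℝ} (hδ : 0 < δ) (T : Set (Cen x)) (hT : T.Finite) :
    Vale.Agent.P184.Slow (⟨x, self_mem_cen x⟩ : Cen x) T δ := by
  have hA : Vale.Agent.P184.IsAmenable (Cen x) :=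
    Vale.Agent.P184.V.isAmenable_of_coAmenable_bot (G := G) (C := Cen x) hC
  obtain ⟨B, _, hB1, hB2⟩ :=
    Vale.Agent.P184.slow_of_propA (Vale.Agent.P184.propA_of_amenable hA) hT hδ
  refine hB2 _ fun b hb hby => hx ?_
  have h1 : IsOfFinOrder (⟨x, self_mem_cen x⟩ : Cen x) := hby.isOfFinOrder (hB1 b hb)
  exact (Submonoid.isOfFinOrder_coe (H := (Cen x).toSubmonoid)
    (x := (⟨x, self_mem_cen x⟩ : Cen x))).mpr h1

/-- [CORE] -/
theorem core : Vale.Agent.P184.H70.CoreStmt.{u} := by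
  intro G _ x hx hC E S δ hE hδ
  exact core_of_slow x E S δ hE fun T hT => slow_cen x hx hC hδ T hT

end Vale.Agent.P184.H38C
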