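import Vale.Agent.P184.H70.Lit

/-!
# The core field: from a slow map on the centralizer to a slow map on the elements `p` with
`p⁻¹ x p` in a finite set
-/

namespace Vale.Agent.P184.H38C

open Vale.Agent.P184.Un

universe u

theorem mem_cen {G : Type*} [Group G] {x g : G} : g ∈ Cen x ↔ x * g = g * x := by
  unfold Cen
  rw [Subgroup.mem_centralizer_iff]
  constructor
  · intro h
    exact h x rfl
  · rintro h y rfl
    exact h

theorem mem_cen_of_conj {G : Type*} [Group G] {x p q : G} (h : p⁻¹ * x * p = q⁻¹ * x * q) :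
    p * q⁻¹ ∈ Cen x := by
  rw [mem_cen]
  have h1 : x * p = p * (q⁻¹ * x * q) := by rw [← h]; group
  calc x * (p * q⁻¹) = x * p * q⁻¹ := by group
    _ = p * (q⁻¹ * x * q) * q⁻¹ := by rw [h1]
    _ = p * q⁻¹ * x := by group

theorem self_mem_cen {G : Type*} [Group G] (x : G) : x ∈ Cen x := mem_cen.2 rfl

/-- The transfer of a slow map on the centralizer of `x`. -/
theorem core_of_slow {G : Type u} [Group G] (x : G) (E : Set G) (S : Finset G) (δ : ℝ)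
    (hE : E.Finite)
    (h : ∀ T : Set (Cen x), T.Finite → ∃ (ι : Type) (_ : Fintype ι) (ζ : ι → ℂ)
      (u : Cen x → ι → ℂ), (∀ j, ‖ζ j‖ = 1 ∧ ζ j ≠ 1) ∧
      (∀ p j, u (⟨x, self_mem_cen x⟩ * p) j = ζ j * u p j) ∧
      (∀ p, ∑ j, ‖u p j‖ ^ 2 = 1) ∧ ∀ s ∈ T, ∀ p, ∑ j, ‖u (p * s) j - u p j‖ ^ 2 ≤ δ ^ 2) :
    ∃ (n : ℕ) (ζ : Fin n → ℂ) (u : G → Fin n → ℂ), (∀ j, ‖ζ j‖ = 1) ∧ (∀ j, ζ j ≠ 1) ∧
      (∀ p, p⁻¹ * x * p ∈ E → ∀ j, u (x * p) j = ζ j * u p j) ∧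
      (∀ p, p⁻¹ * x * p ∈ E → ∑ j, ‖u p j‖ ^ 2 = 1) ∧
      ∀ p, p⁻¹ * x * p ∈ E → ∀ s ∈ S, (p * s)⁻¹ * x * (p * s) ∈ E →
        ∑ j, ‖u (p * s) j - u p j‖ ^ 2 ≤ δ ^ 2 := by
  classical
  -- representatives
  obtain ⟨q, hq⟩ : ∃ q : G → G, ∀ p, p⁻¹ * x * p = (q (p⁻¹ * x * p))⁻¹ * x * q (p⁻¹ * x * p) := by
    refine ⟨fun e => if h : ∃ p, p⁻¹ * x * p = e then h.choose else 1, fun p => ?_⟩
    have h1 : ∃ p', p'⁻¹ * x * p' = p⁻¹ * x * p := ⟨p, rfl⟩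
    beta_reduce
    rw [dif_pos h1]
    exact h1.choose_spec.symm
  have hmem : ∀ p, p * (q (p⁻¹ * x * p))⁻¹ ∈ Cen x := fun p => mem_cen_of_conj (hq p)
  let r : G → Cen x := fun p => ⟨p * (q (p⁻¹ * x * p))⁻¹, hmem p⟩
  let T : Set (Cen x) := {t | ∃ e ∈ E, ∃ e' ∈ E, ∃ s ∈ S, q e * s * (q e')⁻¹ = (t : G)}
  have hT : T.Finite := by
    have h1 : ((fun z : (G × G) × G => q z.1.1 * z.2 * (q z.1.2)⁻¹) '' ((E ×ˢ E) ×ˢ (S : Set G))).Finite :=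
      ((hE.prod hE).prod S.finite_toSet).image _
    refine Set.Finite.subset (h1.preimage (f := ((↑) : Cen x → G)) Subtype.val_injective.injOn) ?_
    rintro t ⟨e, he, e', he', s, hs, ht⟩
    exact ⟨((e, e'), s), ⟨⟨he, he'⟩, hs⟩, ht⟩
  obtain ⟨ι, _, ζ, u, hζ, hu, hn, hs⟩ := h T hT
  have hrx : ∀ p, r (x * p) = ⟨x, self_mem_cen x⟩ * r p := by
    intro p
    apply Subtype.ext
    have h1 : (x * p)⁻¹ * x * (x * p) = p⁻¹ * x * p := by group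
    change x * p * (q ((x * p)⁻¹ * x * (x * p)))⁻¹ = x * (p * (q (p⁻¹ * x * p))⁻¹)
    rw [h1, mul_assoc]
  have hrs : ∀ p s, r (p * s) = r p * ((r p)⁻¹ * r (p * s)) := fun p s => by group
  let eq := Fintype.equivFin ι
  refine ⟨Fintype.card ι, fun j => ζ (eq.symm j), fun p j => u (r p) (eq.symm j),
    fun j => (hζ _).1, fun j => (hζ _).2, fun p _ j => ?_, fun p _ => ?_, fun p hp s hsS hps => ?_⟩
  · change u (r (x * p)) (eq.symm j) = _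
    rw [hrx, hu]
  · rw [← hn (r p)]
    exact Equiv.sum_comp eq.symm (fun j => ‖u (r p) j‖ ^ 2)
  · have h1 : (r p)⁻¹ * r (p * s) ∈ T := by
      refine ⟨_, hp, _, hps, s, hsS, ?_⟩
      change _ = (p * (q (p⁻¹ * x * p))⁻¹)⁻¹ * (p * s * (q ((p * s)⁻¹ * x * (p * s)))⁻¹)
      group
    have h2 := hs _ h1 (r p)
    rw [← hrs] at h2
    refine le_trans (le_of_eq ?_) h2
    exact Equiv.sum_comp eq.symm (fun j => ‖u (r (p * s)) j - u (r p) j‖ ^ 2)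

end Vale.Agent.P184.H38C
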