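import Vale.Agent.P184.H38C.UB
import Vale.Agent.P184.H788.ProdN

/-!
# The universal form of the `ℓ¹`-Bass conjecture: limits and products with arbitrary groups
-/

namespace Vale.Agent.P184F

open Vale.Agent.P184.Un Vale.Agent.P184.H70 Vale.Agent.P184.H38C Vale.Agent.P184.H57

universe u v

/-- Limits. -/
theorem UBass.of_lim {G : Type u} [Group G]
    (h : ∀ S : Finset G, ∃ (H : Type u) (_ : Group H), Lifts H S ∧ UBass H) : UBass G := by
  classical
  intro K _ g q e he
  obtain ⟨S, hS⟩ := Vale.Agent.P184.transfer.{u, u} e (idem_iff.1 he)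
  obtain ⟨H, _, ⟨f, s, hfs⟩, hU⟩ := h (S.image g)
  let P : Subgroup (K × H) :=
    { carrier := {a | g a.1 = f a.2}
      mul_mem' := fun {a b} ha hb => by
        change g (a.1 * b.1) = f (a.2 * b.2)
        rw [map_mul, map_mul, show g a.1 = f a.2 from ha, show g b.1 = f b.2 from hb]
      one_mem' := by
        change g 1 = f 1
        rw [map_one, map_one]
      inv_mem' := fun {a} ha => by
        change g a.1⁻¹ = f a.2⁻¹
        rw [map_inv, map_inv, show g a.1 = f a.2 from ha] }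
  let p1 : P →* K := (MonoidHom.fst K H).comp P.subtype
  let p2 : P →* H := (MonoidHom.snd K H).comp P.subtype
  have hp : ∀ a : P, g (p1 a) = f (p2 a) := fun a => a.2
  let t : K → P := fun k => if hk : g k = f (s (g k)) then ⟨(k, s (g k)), hk⟩ else 1
  have ht : ∀ k ∈ S, ∃ hk : g k = f (s (g k)), t k = ⟨(k, s (g k)), hk⟩ := fun k hk => by
    have h1 : g k = f (s (g k)) := ((hfs (g k) (Finset.mem_image_of_mem g hk)).1).symm
    exact ⟨h1, dif_pos h1⟩
  obtain ⟨b, hb, htau⟩ := hS P p1 t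
    (fun x hx => by
      obtain ⟨h1, h2⟩ := ht x hx
      rw [h2]
      rfl)
    (fun x hx y hy hxy => by
      obtain ⟨_, h2⟩ := ht x hx
      obtain ⟨_, h3⟩ := ht y hy
      obtain ⟨_, h4⟩ := ht _ hxy
      rw [h2, h3, h4]
      apply Subtype.ext
      refine Prod.ext rfl ?_
      change s (g x) * s (g y) = s (g (x * y))
      rw [map_mul]
      refine (hfs _ (Finset.mem_image_of_mem g hx)).2 _ (Finset.mem_image_of_mem g hy) ?_
      rw [← map_mul]
      exact Finset.mem_image_of_mem g hxy)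
  obtain ⟨B, hB1, hB2⟩ := hU P p2 q b (idem_iff.2 hb)
  refine ⟨B.image f, fun c hc => ?_, fun y hy => ?_⟩
  · obtain ⟨b', hb', rfl⟩ := Finset.mem_image.1 hc
    exact f.isOfFinOrder (hB1 b' hb')
  · change Vale.Agent.P184.tau (ConjClasses.mk y) e = 0
    rw [htau]
    refine Vale.Agent.P184.tsum_classes hb p1 _ fun D hD => ?_
    obtain ⟨a, rfl⟩ := ConjClasses.mk_surjective D
    refine hB2 a fun b' hb' hba => hy (f b') (Finset.mem_image_of_mem f hb') ?_
    have h1 : IsConj (p1 a) y := ConjClasses.mk_eq_mk_iff_isConj.1 hD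
    have h2 : IsConj (f b') (g (p1 a)) := by
      rw [hp]
      exact f.map_isConj hba
    exact h2.trans (g.map_isConj h1)

/-- Products of arbitrary groups with groups satisfying the universal form, whose torsion classes
are separated by finite quotients. -/
theorem bass_prod_uBass {G B : Type u} [Group G] [Group B] (hB : UBass B) (hS : TorSep B) :
    L1Bass (G × B) ↔ L1Bass G := by
  classical
  rw [l1Bass_iff, l1Bass_iff]
  constructor
  · exact fun h => Vale.Agent.P184.H11.l1Bass_retract (MonoidHom.inl G B) (MonoidHom.fst G B)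
      (fun _ => rfl) h
  intro hG q e he
  obtain ⟨T, hT1, hT2⟩ := hB (G × B) (MonoidHom.snd G B) q e (idem_iff.2 he)
  obtain ⟨N, hN1, hN2, hN3⟩ := Vale.Agent.P184.H788.exists_sep hS T hT1
  let π : G × B →* G × (B ⧸ N) := MonoidHom.prodMap (MonoidHom.id G) (QuotientGroup.mk' N)
  have hfin : Finite (B ⧸ N) := inferInstance
  obtain ⟨b, hb, htau⟩ := Vale.Agent.P184.pushforward π e he
  obtain ⟨F, hF1, hF2⟩ := (Vale.Agent.P184.H788.bass_prod_finite (G := G) (P := B ⧸ N)).2 hG q b hb
  -- the traces agree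
  have key : ∀ (g : G) (t : B), t ∈ T →
      tau (ConjClasses.mk (π (g, t))) b = tau (ConjClasses.mk (g, t)) e := by
    intro g t ht
    refine (htau _).trans ?_
    refine Vale.Agent.P184.tsum_classes_single he π _ (ConjClasses.mk (g, t)) rfl
      fun D hD hne => ?_
    obtain ⟨⟨g', t'⟩, rfl⟩ := ConjClasses.mk_surjective D
    refine hT2 _ fun s hs hst => hne ?_
    have h1 : IsConj (π (g', t')) (π (g, t)) := ConjClasses.mk_eq_mk_iff_isConj.1 hD
    obtain ⟨h2, h3⟩ := Vale.Agent.P184.H788.isConj_prod.1 h1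
    have h4 : IsConj s t' := hst
    have h5 : IsConj s t := by
      by_contra hne'
      have h6 : IsConj (QuotientGroup.mk' N s) (QuotientGroup.mk' N t) :=
        ((QuotientGroup.mk' N).map_isConj h4).trans h3
      obtain ⟨c, hc⟩ := isConj_iff.1 h6
      obtain ⟨c, rfl⟩ := QuotientGroup.mk'_surjective N c
      refine hN3 s hs t ht hne' c ?_
      rw [← QuotientGroup.ker_mk' N, MonoidHom.mem_ker, map_mul, map_mul, map_mul, map_inv,
        map_inv, hc, mul_inv_cancel]
    exact ConjClasses.mk_eq_mk_iff_isConj.2 (Vale.Agent.P184.H788.isConj_prod.2 ⟨h2, h4.symm.trans h5⟩)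
  -- the classes with nonzero trace
  have hsurj : ∀ C : ConjClasses (G × (B ⧸ N)), ∃ g : G, ∃ c : B ⧸ N, ConjClasses.mk (g, c) = C := by
    intro C
    obtain ⟨⟨g, c⟩, rfl⟩ := ConjClasses.mk_surjective C
    exact ⟨g, c, rfl⟩
  choose r c hr using hsurj
  refine ⟨((F ×ˢ T).image fun p => ConjClasses.mk (r p.1, p.2)).filter
    fun C => Vale.Agent.P184.IsTorsionClass C, fun C hC => (Finset.mem_filter.1 hC).2,
    fun C hC => ?_⟩
  obtain ⟨⟨g, t⟩, rfl⟩ := ConjClasses.mk_surjective C
  by_cases ht : ∃ s ∈ T, IsConj s t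
  · obtain ⟨s, hs, hst⟩ := ht
    have h1 : ConjClasses.mk (g, t) = ConjClasses.mk (g, s) :=
      ConjClasses.mk_eq_mk_iff_isConj.2 (Vale.Agent.P184.H788.isConj_prod.2 ⟨IsConj.refl g, hst.symm⟩)
    rw [h1] at hC ⊢
    refine (key g s hs).symm.trans ?_
    refine hF2 _ fun h2 => hC ?_
    have h3 : IsConj (r (ConjClasses.mk (π (g, s)))) g :=
      (Vale.Agent.P184.H788.isConj_prod.1 (ConjClasses.mk_eq_mk_iff_isConj.1 (hr (ConjClasses.mk (π (g, s)))))).1
    have h4 : IsOfFinOrder g :=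
      (MonoidHom.fst G (B ⧸ N)).isOfFinOrder (Vale.Agent.P184.isTorsionClass_mk.1 (hF1 _ h2))
    refine Finset.mem_filter.2 ⟨Finset.mem_image.2
      ⟨(ConjClasses.mk (π (g, s)), s), Finset.mem_product.2 ⟨h2, hs⟩, ?_⟩, ?_⟩
    · exact ConjClasses.mk_eq_mk_iff_isConj.2 (Vale.Agent.P184.H788.isConj_prod.2 ⟨h3, IsConj.refl s⟩)
    · exact Vale.Agent.P184.isTorsionClass_mk.2 (h4.prod_mk (hT1 s hs))
  · push Not at ht
    exact hT2 _ ht

end Vale.Agent.P184F
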