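import Vale.Agent.P184.H38C.KerD
import Vale.Agent.P184.H38C.UB2

/-!
# The general form: kernels invariant under a coamenable subgroup of the centralizer
-/

namespace Vale.Agent.P184F

open Vale.Agent.P184.Un Vale.Agent.P184.H70 Vale.Agent.P184.H38C Vale.Agent.P184.H57

universe u v

theorem central_cen {G : Type*} [Group G] {x : G} {z : Cen x} (hz : (z : G) = x) (c : Cen x) :
    c ∈ Cen z := by
  rw [mem_cen]
  apply Subtype.ext
  have h1 := mem_cen.1 c.2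
  change (z : G) * c = c * z
  rw [hz, h1]

/-- The field on the core. -/
theorem exists_coreD {G : Type u} [Group G] (x : G) (E : Set G) (S : Finset G) (δ : ℝ)
    (hE : E.Finite) (hδ : 0 < δ) (h : CenSlow x) :
    ∃ (D : Subgroup G) (n : ℕ) (ζ u : G → Fin n → ℂ), x ∈ D ∧ D ≤ Cen x ∧
      (∀ c ∈ Cen x, ∀ d ∈ D, c * d * c⁻¹ ∈ D) ∧ CoAmenable (Cen x) D ∧
      (∀ d ∈ D, ∀ j, ‖ζ d j‖ = 1) ∧ (∀ j, ζ x j ≠ 1) ∧
      (∀ d ∈ D, ∀ p, p⁻¹ * x * p ∈ E → ∀ j, u (d * p) j = ζ d j * u p j) ∧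
      (∀ p, p⁻¹ * x * p ∈ E → ∑ j, ‖u p j‖ ^ 2 = 1) ∧
      ∀ p, p⁻¹ * x * p ∈ E → ∀ s ∈ S, (p * s)⁻¹ * x * (p * s) ∈ E →
        ∑ j, ‖u (p * s) j - u p j‖ ^ 2 ≤ δ ^ 2 := by
  classical
  -- representatives
  obtain ⟨q, hq⟩ : ∃ q : G → G, ∀ p, p⁻¹ * x * p = (q (p⁻¹ * x * p))⁻¹ * x * q (p⁻¹ * x * p) := by
    refine ⟨fun e => if h : ∃ p, p⁻¹ * x * p = e then h.choose else 1, fun p => ?_⟩
    have h1 : ∃ p', p'⁻¹ * x * p' = p⁻¹ * x * p := ⟨p, rfl⟩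
    beta_reduce
    rw [dif_pos h1]
    exact h1.choose_spec.symm
  have hmem : ∀ p, p * (q (p⁻¹ * x * p))⁻¹ ∈ Cen x := fun p => mem_cen_of_conj (hq p)
  let r : G → Cen x := fun p => ⟨p * (q (p⁻¹ * x * p))⁻¹, hmem p⟩
  let T : Set (Cen x) := {t | ∃ e ∈ E, ∃ e' ∈ E, ∃ s ∈ S, q e * s * (q e')⁻¹ = (t : G)}
  have hT : T.Finite := by
    have h1 : ((fun z : (G × G) × G => q z.1.1 * z.2 * (q z.1.2)⁻¹) '' ((E ×ˢ E) ×ˢ (S : Set G))).Finite :=
      ((hE.prod hE).prod S.finite_toSet).image _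
    refine Set.Finite.subset (h1.preimage (f := ((↑) : Cen x → G)) Subtype.val_injective.injOn) ?_
    rintro t ⟨e, he, e', he', s, hs, ht⟩
    exact ⟨((e, e'), s), ⟨⟨he, he'⟩, hs⟩, ht⟩
  set z : Cen x := ⟨x, self_mem_cen x⟩ with hz
  obtain ⟨D, n, ζ, u, hzD, hDC, hDn, hco, hζ, hζ1, hu, hn, hs⟩ :=
    h hT.toFinset (δ ^ 2) (by positivity) z rfl
  obtain ⟨m, m1, m2, m3, m4⟩ := hco
  have hrd : ∀ (d : Cen x) p, r (d * p) = d * r p := by
    intro d p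
    apply Subtype.ext
    have h0 := mem_cen.1 d.2
    have h1 : ((d : G) * p)⁻¹ * x * (d * p) = p⁻¹ * x * p := by
      calc ((d : G) * p)⁻¹ * x * (d * p) = p⁻¹ * ((d : G)⁻¹ * (x * d)) * p := by group
        _ = p⁻¹ * ((d : G)⁻¹ * (d * x)) * p := by rw [h0]
        _ = _ := by group
    change (d : G) * p * (q (((d : G) * p)⁻¹ * x * (d * p)))⁻¹ = d * (p * (q (p⁻¹ * x * p))⁻¹)
    rw [h1, mul_assoc]
  have hrs : ∀ p s, r (p * s) = r p * ((r p)⁻¹ * r (p * s)) := fun p s => by group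
  refine ⟨D.map (Cen x).subtype, n, fun d j => if h : d ∈ Cen x then ζ ⟨d, h⟩ j else 1,
    fun p j => u (r p) j, ⟨z, hzD, rfl⟩, ?_, ?_, ?_, ?_, ?_, ?_, fun p _ => hn (r p), ?_⟩
  · rintro _ ⟨d, _, rfl⟩
    exact d.2
  · rintro c hc _ ⟨d, hd, rfl⟩
    exact ⟨⟨c, hc⟩ * d * (⟨c, hc⟩ : Cen x)⁻¹, hDn ⟨c, hc⟩ (central_cen rfl _) d hd, rfl⟩
  · have hb : ∀ f : G → ℝ, BddInv (Cen x) (D.map (Cen x).subtype) f →
        BddInv (Cen z) D fun c : Cen x => f c := by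
      rintro f ⟨⟨K, hK⟩, hf⟩
      exact ⟨⟨K, fun c _ => hK c c.2⟩, fun d hd c _ => hf d ⟨d, hd, rfl⟩ c c.2⟩
    refine ⟨fun f => m fun c : Cen x => f c, fun f g hf hg => m1 _ _ (hb f hf) (hb g hg),
      fun f hf h0 => m2 _ (hb f hf) fun c _ => h0 c c.2, fun r => m3 r, fun f hf k hk => ?_⟩
    exact m4 _ (hb f hf) ⟨k, hk⟩ (central_cen rfl _)
  · rintro _ ⟨d, _, rfl⟩ j
    have h1 : (Cen x).subtype d ∈ Cen x := d.2
    beta_reduce
    rw [dif_pos h1]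
    exact hζ _ _
  · intro j
    beta_reduce
    rw [dif_pos (self_mem_cen x)]
    exact hζ1 j
  · rintro _ ⟨d, hd, rfl⟩ p _ j
    have h1 : (Cen x).subtype d ∈ Cen x := d.2
    beta_reduce
    rw [dif_pos h1]
    change u (r ((d : G) * p)) j = ζ d j * u (r p) j
    rw [hrd, hu d hd]
  · intro p hp s hsS hps
    have h1 : (r p)⁻¹ * r (p * s) ∈ T := by
      refine ⟨_, hp, _, hps, s, hsS, ?_⟩
      change _ = (p * (q (p⁻¹ * x * p))⁻¹)⁻¹ * (p * s * (q ((p * s)⁻¹ * x * (p * s)))⁻¹)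
      group
    have h2 := hs _ (hT.mem_toFinset.2 h1) (r p)
    rw [← hrs] at h2
    exact h2

/-- Pull back of coamenable normal subgroups. -/
theorem coAmenable_pullD {H G : Type*} [Group H] [Group G] (g : H →* G) (y : H)
    (D : Subgroup G) (hD : D ≤ Cen (g y)) (hn : ∀ c ∈ Cen (g y), ∀ d ∈ D, c * d * c⁻¹ ∈ D)
    (hC : CoAmenable (Cen (g y)) D) : CoAmenable (Cen y) (D.comap g ⊓ Cen y) := by
  have hN : (D.subgroupOf (Cen (g y))).Normal := ⟨fun d hd c => by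
    rw [Subgroup.mem_subgroupOf] at hd ⊢
    exact hn _ c.2 _ hd⟩
  have hA : Vale.Agent.P184.IsAmenable (Cen (g y) ⧸ D.subgroupOf (Cen (g y))) :=
    Vale.Agent.P184.V.coAmenable_amenable (G := G) (C := Cen (g y)) hD hC
  let φ : Cen y →* Cen (g y) := (g.comp (Cen y).subtype).codRestrict (Cen (g y)) fun c => by
    have h1 := mem_cen.1 c.2
    rw [mem_cen]
    change g y * g c = g c * g y
    rw [← map_mul, ← map_mul, h1]
  let ψ : Cen y →* Cen (g y) ⧸ D.subgroupOf (Cen (g y)) :=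
    (QuotientGroup.mk' (D.subgroupOf (Cen (g y)))).comp φ
  have h2 : Vale.Agent.P184.IsAmenable (Cen y ⧸ ψ.ker) :=
    Vale.Agent.P184.isAmenable_of_injective (QuotientGroup.kerLift ψ)
      (QuotientGroup.kerLift_injective ψ) hA
  have h3 : CoAmenable (Cen y) (ψ.ker.map (Cen y).subtype) :=
    Vale.Agent.P184.V.amenable_coAmenable (C := Cen y) ψ.ker h2
  refine coAmenable_mono' ?_ h3
  rintro _ ⟨c, hc, rfl⟩
  refine ⟨?_, c.2⟩
  have h4 : φ c ∈ D.subgroupOf (Cen (g y)) := by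
    rw [← QuotientGroup.eq_one_iff]
    exact hc
  exact Subgroup.mem_subgroupOf.1 h4

theorem coAmenable_self {G : Type*} [Group G] (C : Subgroup G) : CoAmenable C C := by
  refine ⟨fun f => f 1, fun f g _ _ => rfl, fun f _ h => h 1 C.one_mem, fun r => rfl,
    fun f hf k hk => ?_⟩
  have h1 := hf.2 k hk 1 C.one_mem
  rw [mul_one] at h1
  change f (1 * k) = f 1
  rw [one_mul, h1]

/-- Pull back of the data, general form. -/
theorem fd_pullD {H G : Type u} [Group H] [Group G] (g : H →* G) {E₀ : Type v}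
    [NormedAddCommGroup E₀] [InnerProductSpace ℝ E₀] (F : G → E₀) (hF : RLip F) (X : Set G)
    (hX : ∀ a b, IsConj a b → a ∈ X → b ∈ X) (hP : PropOn F X) (S : Finset H) :
    ∃ κ : ℝ, ∀ δ : ℝ, 0 < δ → ∀ M : ℕ, ∃ B : Finset G, ∀ y : H, g y ∈ X → InvAt F (g y) →
      (CenSlow (g y) ∨ ∀ b ∈ B, ¬ IsConj b (g y)) → Fd.{u} y S κ δ M := by
  classical
  choose K hK1 using hF
  obtain ⟨κ, hκ⟩ := (S.image fun s => 2 * K (g s)).exists_le
  refine ⟨κ, fun δ hδ M => ?_⟩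
  set r : ℝ := 2 ^ (2 * (3 * M) ^ 2) with hr
  set Ec : Set G := {e | e ∈ X ∧ ∃ p, ‖F (p * e) - F p‖ ≤ r} with hEc
  have hfin : Ec.Finite := hP r
  refine ⟨hfin.toFinset, fun y hyX ⟨D₀, hC, hD₀⟩ hy => ?_⟩
  obtain ⟨E, _, _, f, f1, f2, f3, f4⟩ := kerD (g y) D₀ hC F K (fun a p => hK1 a p) hD₀
  have hcore : ∀ p : G, ‖f (g y * p) - f p‖ < 3 * M → p⁻¹ * g y * p ∈ Ec := by
    intro p hp
    by_contra hne
    have h1 := f4 (3 * M) p fun p' hp' => by
      by_contra hlt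
      push Not at hlt
      apply hne
      refine ⟨hX _ _ (isConj_iff.2 ⟨p⁻¹, by group⟩) hyX, p', ?_⟩
      have h2 : p' * (p⁻¹ * g y * p) = g y * p' := by rw [← hp']; group
      rw [h2]
      exact hlt.le
    push_cast at h1
    linarith
  have hDinv : ∀ D : Subgroup H, D ≤ Cen y → ∀ d ∈ D, ∀ p q,
      ‖f (g (d * p)) - f (g (d * q))‖ = ‖f (g p) - f (g q)‖ := by
    intro D hD d hd p q
    rw [map_mul, map_mul]
    refine f1 _ ?_ _ _
    have h1 := mem_cen.1 (hD hd)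
    rw [mem_cen, ← map_mul, ← map_mul, h1]
  have hdy : ∀ (j : ℕ) (p : H),
      ‖f (g (y ^ (2 ^ j) * p)) - f (g p)‖ ^ 2 ≤ j + ‖f (g (y * p)) - f (g p)‖ ^ 2 := by
    intro j p
    have h1 := f2 j (g p)
    rw [map_mul, map_mul, map_pow]
    exact h1
  have hlip : ∀ s ∈ S, ∀ p, ‖f (g (p * s)) - f (g p)‖ ≤ κ := by
    intro s hs p
    rw [map_mul]
    exact (f3 (g s) (g p)).trans (hκ _ (Finset.mem_image_of_mem _ hs))
  rcases hy with hy | hy
  · obtain ⟨D, n, ζ, u, c1, c2, c3, c4, c5, c6, c7, c8, c9⟩ :=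
      exists_coreD (g y) Ec (S.image g) δ hfin hδ hy
    refine ⟨D.comap g ⊓ Cen y, n, fun d => ζ (g d), fun p => u (g p), E, inferInstance,
      inferInstance, fun p => f (g p), ⟨c1, self_mem_cen y⟩, inf_le_right,
      coAmenable_pullD g y D c2 c3 c4, fun d hd => c5 _ hd.1, c6, hDinv _ inf_le_right, hdy, hlip,
      ?_, ?_, ?_⟩
    · intro d hd p hp j
      beta_reduce at hp ⊢
      rw [map_mul] at hp
      rw [map_mul]
      exact c7 _ hd.1 _ (hcore _ hp) j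
    · intro p hp
      beta_reduce at hp ⊢
      rw [map_mul] at hp
      exact c8 _ (hcore _ hp)
    · intro p hp s hs hps
      beta_reduce at hp hps ⊢
      rw [map_mul] at hp
      rw [map_mul, map_mul] at hps
      rw [map_mul]
      exact c9 _ (hcore _ hp) (g s) (Finset.mem_image_of_mem g hs) (hcore _ hps)
  · have hno : ∀ p : H, ¬ ‖f (g (y * p)) - f (g p)‖ < 3 * M := fun p hp => by
      rw [map_mul] at hp
      exact hy _ (hfin.mem_toFinset.2 (hcore _ hp)) (isConj_iff.2 ⟨g p, by group⟩)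
    exact ⟨Cen y, 0, fun _ j => j.elim0, fun _ j => j.elim0, E, inferInstance, inferInstance,
      fun p => f (g p), self_mem_cen y, le_rfl, coAmenable_self _, fun _ _ j => j.elim0,
      fun j => j.elim0, hDinv _ le_rfl, hdy, hlip, fun _ _ p hp => absurd hp (hno p),
      fun p hp => absurd hp (hno p), fun p hp => absurd hp (hno p)⟩

/-- The traces of an idempotent vanish outside finitely many classes. -/
theorem exists_excD {H : Type u} [Group H] {q : ℕ} (e : Mat H q) (he : IsIdem e)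
    {L : Type u} [Group L] (g : H →* L) {E₀ : Type v} [NormedAddCommGroup E₀]
    [InnerProductSpace ℝ E₀] (F : L → E₀) (hF : RLip F) (X : Set L)
    (hX : ∀ a b, IsConj a b → a ∈ X → b ∈ X) (hP : PropOn F X) : ∃ B : Finset L, ∀ y : H,
      g y ∈ X → InvAt F (g y) → (CenSlow (g y) ∨ ∀ b ∈ B, ¬ IsConj b (g y)) →
        tau (ConjClasses.mk y) e = 0 := by
  obtain ⟨S, _, _, h⟩ := data.{u, u} H q e he
  obtain ⟨κ, hκ⟩ := fd_pullD g F hF X hX hP S
  obtain ⟨δ, hδ, M, hM⟩ := h κ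
  obtain ⟨B, hB⟩ := hκ δ hδ M
  exact ⟨B, fun y h0 h1 h2 => hM y (hB y h0 h1 h2)⟩

end Vale.Agent.P184F
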