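import Vale.Agent.P184.H38C.Core

/-!
# From the main theorem to the `ℓ¹`-Bass conjecture for limits
-/

namespace Vale.Agent.P184F

open Vale.Agent.P184.Un Vale.Agent.P184.H70

universe u v

section conv

variable {G : Type*} [Group G]

theorem idem_iff {q : ℕ} {e : Mat G q} : IsIdem e ↔ Vale.Agent.P184.IsIdem e :=
  and_congr Iff.rfl ⟨fun h i j g => congrFun (congrFun (congrFun h i) j) g,
    fun h => funext fun i => funext fun j => funext fun g => h i j g⟩

theorem vanishesAt_iff {x : G} : VanishesAt x ↔ Vale.Agent.P184.VanishesAt x :=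
  forall_congr' fun _ => forall_congr' fun _ => imp_congr idem_iff Iff.rfl

theorem l1Bass_iff : L1Bass G ↔ Vale.Agent.P184.L1Bass G :=
  forall_congr' fun _ => forall_congr' fun _ => imp_congr idem_iff Iff.rfl

theorem l1Bass_iffW : L1Bass G ↔ Vale.Agent.P184.W.L1Bass G :=
  forall_congr' fun _ => forall_congr' fun _ => imp_congr idem_iff Iff.rfl

theorem vanishesAt_of_mild {x : G} (h : Mild x) : VanishesAt x :=
  vanishesAt_iff.2 (Vale.Agent.P184.W.vanishesAt_of_mild (x := x) h)

end conv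

/-- Traces vanish at a conjugate of `x`. -/
theorem vanishesAt_conj {G : Type*} [Group G] {x y : G} (h : IsConj x y) (hx : VanishesAt x) :
    VanishesAt y := by
  intro q e he
  rw [← ConjClasses.mk_eq_mk_iff_isConj.2 h]
  exact hx q e he

theorem isOfFinOrder_subgroup {G : Type*} [Group G] {H : Subgroup G} {y : H} :
    IsOfFinOrder (y : G) ↔ IsOfFinOrder y :=
  Submonoid.isOfFinOrder_coe (H := H.toSubmonoid) (x := y)

/-- The `ℓ¹`-Bass conjecture for the groups in the class `HilbAmen`. -/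
theorem l1Bass_of_hilbAmen (hM : MainStmt.{u}) {G : Type u} [Group G] (hG : HilbAmen G) :
    L1Bass G := by
  classical
  obtain ⟨hE, hinf, htor⟩ := hG
  intro q e he
  obtain ⟨S₁, δ, hδ, h⟩ := Vale.Agent.P184.exists_slowD_param e (idem_iff.1 he)
  obtain ⟨S₂, h2⟩ := Vale.Agent.P184.exists_support e (idem_iff.1 he)
  obtain ⟨B₀, hB₀⟩ := hM G hE q e he
  obtain ⟨B, hB⟩ := htor (S₁ ∪ S₂) (δ ^ 2) (by positivity)
  refine ⟨((B₀ ∪ B).image ConjClasses.mk).filter fun C => ∀ g ∈ C.carrier, IsOfFinOrder g,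
    fun C hC => (Finset.mem_filter.mp hC).2, fun C hC => ?_⟩
  obtain ⟨x, rfl⟩ := ConjClasses.mk_surjective C
  by_cases hx : IsOfFinOrder x
  · by_cases hy : ∀ y ∈ Subgroup.closure (S₂ : Set G), ¬ IsConj x y
    · exact h2 x hy
    · push Not at hy
      obtain ⟨y, hy, hxy⟩ := hy
      have hyo : IsOfFinOrder y := hxy.isOfFinOrder hx
      have hyS : y ∈ Subgroup.closure ((S₁ ∪ S₂ : Finset G) : Set G) :=
        Subgroup.closure_mono (by rw [Finset.coe_union]; exact Set.subset_union_right) hy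
      have hconj : ∀ b ∈ B₀ ∪ B, ¬ IsConj b y := by
        intro b hb hby
        apply hC
        rw [Finset.mem_filter]
        refine ⟨Finset.mem_image.2 ⟨b, hb, ConjClasses.mk_eq_mk_iff_isConj.mpr
          (hby.trans hxy.symm)⟩, ?_⟩
        intro g hg
        rw [ConjClasses.mem_carrier_iff_mk_eq, ConjClasses.mk_eq_mk_iff_isConj] at hg
        exact hg.symm.isOfFinOrder hx
      rw [ConjClasses.mk_eq_mk_iff_isConj.mpr hxy]
      rcases hB y hyS hyo with h3 | h3 | ⟨b, hb, hby⟩
      · have h4 : Vale.Agent.P184.SlowD y ((S₁ ∪ S₂ : Finset G) : Set G) δ :=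
          Vale.Agent.P184.V.slowAt_iff'.1 h3
        exact h y (Vale.Agent.P184.slowD_mono
          (by rw [Finset.coe_union]; exact Set.subset_union_left) h4)
      · exact hB₀ y h3 (Or.inr fun b hb => hconj b (Finset.mem_union_left _ hb))
      · exact absurd hby (hconj b (Finset.mem_union_right _ hb))
  · rcases hinf x hx with h3 | h3
    · exact vanishesAt_of_mild h3 q e he
    · exact hB₀ x h3 (Or.inl hx)

/-- Second half of [F]. -/
theorem l1Bass_of_lim (hM : MainStmt.{v}) (G : Type u) [Group G]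
    (h : ∀ S : Finset G, ∃ (H : Type v) (_ : Group H), Lifts H S ∧ HilbAmen H) : L1Bass G :=
  l1Bass_iffW.2 (Vale.Agent.P184.W.l1Bass_of_lifts.{u, v} fun S => by
    obtain ⟨H, _, h1, h2⟩ := h S
    exact ⟨H, inferInstance, h1, l1Bass_iffW.1 (l1Bass_of_hilbAmen hM h2)⟩)

end Vale.Agent.P184F
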