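import Vale.Agent.P184.R3.UDefs

/-!
# Definitions: maps to Hilbert spaces and the universal form of the `ℓ¹`-Bass conjecture
-/

namespace Vale.Agent.P184F

open Vale.Agent.P184.Un

universe u v

/-- The universal form of the `ℓ¹`-Bass conjecture for `G`: for each homomorphism `g` from a group
`H` to `G` and each idempotent matrix over `ℓ¹(H)`, the traces vanish at all `y` such that `g y`
is outside finitely many classes of elements of finite order. -/
def UBass (G : Type u) [Group G] : Prop :=
  ∀ (H : Type u) [Group H] (g : H →* G) (q : ℕ) (e : Mat H q), IsIdem e → ∃ B : Finset G,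
    (∀ b ∈ B, IsOfFinOrder b) ∧
      ∀ y : H, (∀ b ∈ B, ¬ IsConj b (g y)) → tau (ConjClasses.mk y) e = 0

/-- For all homomorphisms from groups to `G`, the traces vanish at the preimages of `x`. -/
def UVanish {G : Type u} [Group G] (x : G) : Prop :=
  ∀ (H : Type u) [Group H] (g : H →* G) (y : H), g y = x → VanishesAt y

/-- `F` is bounded under right translations. -/
def RLip {G E : Type*} [Group G] [NormedAddCommGroup E] (F : G → E) : Prop :=
  ∀ g, ∃ K : ℝ, ∀ p, ‖F (p * g) - F p‖ ≤ K

/-- `F` is proper on the set `X`. -/
def PropOn {G E : Type*} [Group G] [NormedAddCommGroup E] (F : G → E) (X : Set G) : Prop :=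
  ∀ r : ℝ, {g | g ∈ X ∧ ∃ p, ‖F (p * g) - F p‖ ≤ r}.Finite

/-- `G` embeds coarsely in a Hilbert space. -/
def HilbEmb (G : Type*) [Group G] : Prop :=
  ∃ (E : Type) (_ : NormedAddCommGroup E) (_ : InnerProductSpace ℝ E) (F : G → E),
    RLip F ∧ PropOn F Set.univ

/-- `G` embeds coarsely in a Hilbert space, the elements of infinite order are mild or have
amenable centralizers, and for all `S` and `δ` the elements of finite order of the subgroup
generated by `S` satisfy `SlowAt` or have amenable centralizers, up to finitely many classes. -/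
def HilbAmen (G : Type*) [Group G] : Prop :=
  HilbEmb G ∧ (∀ x : G, ¬ IsOfFinOrder x → Mild x ∨ CoAmenable (Cen x) ⊥) ∧
    ∀ (S : Finset G) (δ : ℝ), 0 < δ → ∃ B : Finset G, ∀ x ∈ Subgroup.closure (S : Set G),
      IsOfFinOrder x → SlowAt x S δ ∨ CoAmenable (Cen x) ⊥ ∨ ∃ b ∈ B, IsConj b x

/-- The distances of the values of `F` are invariant under left translation by the elements of a
coamenable subgroup of the centralizer of `x`. -/
def InvAt {G E : Type*} [Group G] [NormedAddCommGroup E] (F : G → E) (x : G) : Prop :=
  ∃ D : Subgroup G, CoAmenable (Cen x) D ∧ ∀ d ∈ D, ∀ p q, ‖F (d * p) - F (d * q)‖ = ‖F p - F q‖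

/-- `x` has slow maps as an element of its centralizer. -/
def CenSlow {G : Type*} [Group G] (x : G) : Prop :=
  ∀ (T : Finset (Cen x)) (δ : ℝ), 0 < δ → ∀ z : Cen x, (z : G) = x → SlowAt z T δ

/-- There is a map from `G` to a Hilbert space, bounded under right translations, proper on the
class of `x`, with distances invariant under a coamenable subgroup of the centralizer of `x`. -/
def EmbAt {G : Type*} [Group G] (x : G) : Prop :=
  ∃ (E : Type) (_ : NormedAddCommGroup E) (_ : InnerProductSpace ℝ E) (F : G → E),
    RLip F ∧ InvAt F x ∧ PropOn F {g | IsConj x g}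

/-- `x` has infinite order and `G` has property A, or `x` is mild, or `x` satisfies `CenSlow` and
`EmbAt`. -/
def Det {G : Type*} [Group G] (x : G) : Prop :=
  (¬ IsOfFinOrder x ∧ PropertyA G) ∨ Mild x ∨ (CenSlow x ∧ EmbAt x)

/-- For each finite set `S` there is a map to a group, multiplicative on `S`, which maps `x` to
an element as in `Det`. -/
def LocDet {G : Type u} [Group G] (x : G) : Prop :=
  ∀ S : Finset G, ∃ (L : Type u) (_ : Group L) (l : G → L),
    (∀ a ∈ S, ∀ b ∈ S, l (a * b) = l a * l b) ∧ Det (l x)

/-- The elements of infinite order satisfy `LocDet`; there is a map `F` to a Hilbert space,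
bounded under right translations, such that for all `S` and `δ` the elements of finite order of
the subgroup generated by `S` satisfy `SlowAt`, or `InvAt`, if `F` is proper on the set of
elements of finite order, up to finitely many classes. -/
def GNice (G : Type u) [Group G] : Prop :=
  (∀ x : G, ¬ IsOfFinOrder x → LocDet x) ∧
    ∃ (E : Type) (_ : NormedAddCommGroup E) (_ : InnerProductSpace ℝ E) (F : G → E), RLip F ∧
      ∀ (S : Finset G) (δ : ℝ), 0 < δ → ∃ B : Finset G, ∀ x ∈ Subgroup.closure (S : Set G),
        IsOfFinOrder x → SlowAt x S δ ∨ (PropOn F {g | IsOfFinOrder g} ∧ InvAt F x) ∨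
          ∃ b ∈ B, IsConj b x

/-- Elements of finite order which are not conjugate are not conjugate in some finite quotient. -/
def TorSep (B : Type v) [Group B] : Prop :=
  ∀ x y : B, IsOfFinOrder x → IsOfFinOrder y → ¬ IsConj x y →
    ∃ N : Subgroup B, N.Normal ∧ N.FiniteIndex ∧ ∀ c, c * x * c⁻¹ * y⁻¹ ∉ N

end Vale.Agent.P184F
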