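import Vale.Agent.P184.H38C.CoreD

/-!
# The final classes of elements and groups
-/

namespace Vale.Agent.P184F

open Vale.Agent.P184.Un Vale.Agent.P184.H70 Vale.Agent.P184.H38C Vale.Agent.P184.H57

universe u v w

/-- A homomorphism from the centralizer of `x` to an amenable group maps `x` to an element of
infinite order. -/
theorem cenSlow_of_hom {G : Type u} [Group G] {x : G} {A : Type v} [Group A]
    (hA : CoAmenable (⊤ : Subgroup A) ⊥) (f : Cen x →* A)
    (hx : ∀ z : Cen x, (z : G) = x → ¬ IsOfFinOrder (f z)) : CenSlow x := by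
  classical
  intro T δ hδ z hz
  have hA' : Vale.Agent.P184.IsAmenable A :=
    Vale.Agent.P184.V.isAmenable_of_coAmenable_top (G := A) hA
  obtain ⟨B, _, hB1, hB2⟩ := Vale.Agent.P184.slow_of_propA
    (Vale.Agent.P184.propA_of_amenable hA') (S := f '' (T : Set (Cen x)))
    (T.finite_toSet.image f) (Real.sqrt_pos.2 hδ)
  have h1 : Vale.Agent.P184.Slow (f z) (f '' (T : Set (Cen x))) (√δ) :=
    hB2 _ fun b hb hby => hx z hz (hby.isOfFinOrder (hB1 b hb))
  have h2 : Vale.Agent.P184.SlowD (f z) (f '' (T : Set (Cen x))) (√δ) :=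
    Vale.Agent.P184.slowD_of_slow (hA'.subgroup _) h1
  have h3 : Vale.Agent.P184.SlowD z (T : Set (Cen x)) (√δ) :=
    Vale.Agent.P184.slowD_hom f h2
  exact (Vale.Agent.P184.V.slowAt_iff hδ.le).2 h3

theorem coAm_top {G : Type*} [Group G] (h : Vale.Agent.P184.IsAmenable G) :
    CoAmenable (⊤ : Subgroup G) ⊥ := by
  obtain ⟨m, h1, h2, h3, h4⟩ := h
  have hb : ∀ f : G → ℝ, BddInv ⊤ ⊥ f → ∃ K, ∀ g, |f g⁻¹| ≤ K := by
    rintro f ⟨⟨K, hK⟩, _⟩
    exact ⟨K, fun g => hK _ (Subgroup.mem_top _)⟩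
  refine ⟨fun f => m fun g => f g⁻¹, fun f g hf hg => h1 _ _ (hb f hf) (hb g hg),
    fun f hf h0 => h2 _ (hb f hf) fun g => h0 _ (Subgroup.mem_top _), fun r => h3 r,
    fun f hf k _ => ?_⟩
  have h5 := h4 (fun g => f g⁻¹) k⁻¹ (hb f hf)
  beta_reduce
  rw [← h5]
  congr 1
  funext g
  rw [mul_inv_rev, inv_inv]

/-- Elements of infinite order with amenable centralizer. -/
theorem cenSlow_of_amen {G : Type u} [Group G] {x : G} (hx : ¬ IsOfFinOrder x)
    (hC : CoAmenable (Cen x) ⊥) : CenSlow x := by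
  refine cenSlow_of_hom (A := Cen x)
    (coAm_top (Vale.Agent.P184.V.isAmenable_of_coAmenable_bot (G := G) (C := Cen x) hC))
    (MonoidHom.id _) fun z hz h => hx ?_
  rw [← hz]
  exact isOfFinOrder_subgroup.2 h

theorem uvAt_of_embAt {G : Type u} [Group G] {x : G} (h1 : CenSlow x) (h2 : EmbAt x) :
    UVAt x := by
  intro H _ g y hy q e he
  subst hy
  obtain ⟨E, _, _, F, hF, hI, hP⟩ := h2
  obtain ⟨B, hB⟩ := exists_excD e he g F hF {a | IsConj (g y) a}
    (fun a b hab ha => IsConj.trans ha hab) hP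
  exact hB y (IsConj.refl _) hI (Or.inl h1)

theorem uvAt_of_det {G : Type u} [Group G] {x : G} (h : Det x) : UVAt x := by
  rcases h with ⟨h1, h2⟩ | h1 | ⟨h1, h2⟩
  · exact uvAt_of_propertyA h2 h1
  · exact uvAt_of_mild h1
  · exact uvAt_of_embAt h1 h2

theorem uvAt_of_locDet {G : Type u} [Group G] {x : G} (h : LocDet x) : UVAt x :=
  uvAt_of_loc x fun S => by
    obtain ⟨L, _, l, h1, h2⟩ := h S
    exact ⟨L, inferInstance, l, h1, uvAt_of_det h2⟩

theorem locDet_of_det {G : Type u} [Group G] {x : G} (h : Det x) : LocDet x :=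
  fun _ => ⟨G, inferInstance, id, fun _ _ _ _ => rfl, h⟩

theorem uBass_of_gNice {G : Type u} [Group G] (hG : GNice G) : UBass G := by
  classical
  obtain ⟨hinf, E, _, _, F, hF, htor⟩ := hG
  intro H _ g q e he
  obtain ⟨S₁, δ, hδ, h⟩ := Vale.Agent.P184.exists_slowD_param e (idem_iff.1 he)
  obtain ⟨S₂, h2⟩ := Vale.Agent.P184.exists_support e (idem_iff.1 he)
  obtain ⟨B₀, hB₀⟩ : ∃ B₀ : Finset G, PropOn F {g | IsOfFinOrder g} → ∀ y : H,
      IsOfFinOrder (g y) → InvAt F (g y) → (∀ b ∈ B₀, ¬ IsConj b (g y)) →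
        tau (ConjClasses.mk y) e = 0 := by
    by_cases hP : PropOn F {g | IsOfFinOrder g}
    · obtain ⟨B₀, hB₀⟩ := exists_excD e he g F hF {g | IsOfFinOrder g}
        (fun a b hab ha => hab.isOfFinOrder ha) hP
      exact ⟨B₀, fun _ y h0 h1 h2 => hB₀ y h0 h1 (Or.inr h2)⟩
    · exact ⟨∅, fun h => absurd h hP⟩
  obtain ⟨B, hB⟩ := htor ((S₁ ∪ S₂).image g) (δ ^ 2) (by positivity)
  refine ⟨(B₀ ∪ B).filter IsOfFinOrder, fun b hb => (Finset.mem_filter.1 hb).2, fun x hx => ?_⟩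
  by_cases hxo : IsOfFinOrder (g x)
  · by_cases hy : ∀ y ∈ Subgroup.closure (S₂ : Set H), ¬ IsConj x y
    · exact h2 x hy
    · push Not at hy
      obtain ⟨y, hy, hxy⟩ := hy
      have hgxy : IsConj (g x) (g y) := g.map_isConj hxy
      have hyo : IsOfFinOrder (g y) := hgxy.isOfFinOrder hxo
      have hyS : g y ∈ Subgroup.closure (((S₁ ∪ S₂).image g : Finset G) : Set G) := by
        rw [Finset.coe_image, ← MonoidHom.map_closure]
        refine Subgroup.mem_map_of_mem g (Subgroup.closure_mono ?_ hy)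
        rw [Finset.coe_union]
        exact Set.subset_union_right
      have hconj : ∀ b ∈ B₀ ∪ B, ¬ IsConj b (g y) := by
        intro b hb hby
        exact hx b (Finset.mem_filter.2 ⟨hb, hby.symm.isOfFinOrder hyo⟩) (hby.trans hgxy.symm)
      rw [ConjClasses.mk_eq_mk_iff_isConj.mpr hxy]
      rcases hB (g y) hyS hyo with h3 | ⟨h3, h4⟩ | ⟨b, hb, hby⟩
      · have h4 : Vale.Agent.P184.SlowD (g y) (((S₁ ∪ S₂).image g : Finset G) : Set G) δ :=
          Vale.Agent.P184.V.slowAt_iff'.1 h3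
        rw [Finset.coe_image] at h4
        exact h y (Vale.Agent.P184.slowD_mono
          (by rw [Finset.coe_union]; exact Set.subset_union_left)
          (Vale.Agent.P184.slowD_hom g h4))
      · exact hB₀ h3 y hyo h4 fun b hb => hconj b (Finset.mem_union_left _ hb)
      · exact absurd hby (hconj b (Finset.mem_union_right _ hb))
  · exact uvAt_of_locDet (hinf (g x) hxo) H g x rfl q e he

theorem invAt_of_amen {G E : Type*} [Group G] [NormedAddCommGroup E] (F : G → E) {x : G}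
    (h : CoAmenable (Cen x) ⊥) : InvAt F x :=
  ⟨⊥, h, fun d hd p q => by rw [Subgroup.mem_bot.1 hd, one_mul, one_mul]⟩

theorem invAt_of_inv {G E : Type*} [Group G] [NormedAddCommGroup E] (F : G → E) {x : G}
    (h : ∀ c ∈ Cen x, ∀ p q, ‖F (c * p) - F (c * q)‖ = ‖F p - F q‖) : InvAt F x :=
  ⟨Cen x, coAmenable_self _, h⟩

theorem gNice_of_hilbAmen {G : Type u} [Group G] (h : HilbAmen G) : GNice G := by
  obtain ⟨⟨E, _, _, F, hF, hP⟩, h2, h3⟩ := h
  have hP' : ∀ X, PropOn F X := fun X r => (hP r).subset fun g hg => ⟨Set.mem_univ _, hg.2⟩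
  refine ⟨fun x hx => locDet_of_det ?_, E, inferInstance, inferInstance, F, hF,
    fun S δ hδ => ?_⟩
  · exact (h2 x hx).elim (fun h => Or.inr (Or.inl h)) fun h => Or.inr (Or.inr
      ⟨cenSlow_of_amen hx h, E, inferInstance, inferInstance, F, hF, invAt_of_amen F h, hP' _⟩)
  · obtain ⟨B, hB⟩ := h3 S δ hδ
    exact ⟨B, fun x hx hxo => (hB x hx hxo).imp id fun h => h.imp
      (fun h => ⟨hP' _, invAt_of_amen F h⟩) id⟩

/-- Groups with an invariant proper map, i.e. with the Haagerup property. -/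
theorem gNice_of_inv {G : Type u} [Group G] {E : Type} [NormedAddCommGroup E]
    [InnerProductSpace ℝ E] (F : G → E)
    (hF : ∀ g p q, ‖F (g * p) - F (g * q)‖ = ‖F p - F q‖) (hP : PropOn F Set.univ)
    (h : ∀ x : G, ¬ IsOfFinOrder x → Mild x ∨ CenSlow x) : GNice G := by
  have hL : RLip F := fun g => ⟨‖F g - F 1‖, fun p => by
    have h1 := hF p g 1
    rw [mul_one] at h1
    exact h1.le⟩
  have hP' : ∀ X, PropOn F X := fun X r => (hP r).subset fun g hg => ⟨Set.mem_univ _, hg.2⟩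
  refine ⟨fun x hx => locDet_of_det ?_, E, inferInstance, inferInstance, F, hL,
    fun S δ hδ => ⟨∅, fun x _ _ => Or.inr (Or.inl ⟨hP' _, invAt_of_inv F fun c _ => hF c⟩)⟩⟩
  exact (h x hx).elim (fun h => Or.inr (Or.inl h)) fun h => Or.inr (Or.inr
    ⟨h, E, inferInstance, inferInstance, F, hL, invAt_of_inv F fun c _ => hF c, hP' _⟩)

end Vale.Agent.P184F
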