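import Vale.Agent.P184.H735.K2
import Vale.Agent.P184.H236.K1

/-!
# Averaged kernels, relative to a subgroup leaving the kernel invariant
(adapted from H735/K2)
-/

noncomputable section

namespace Vale.Agent.P184F

open Vale.Agent.P184.Un Vale.Agent.P184.H38 Vale.Agent.P184.H70 Vale.Agent.P184.H735

universe u v

theorem meanKerD {G : Type u} [Group G] (x : G) (D : Subgroup G) (hm : CoAmenable (Cen x) D)
    {H : Type v} [NormedAddCommGroup H] [InnerProductSpace ℝ H] (F : G → H) (K : G → ℝ)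
    (hK : ∀ g p, ‖F (p * g) - F p‖ ≤ K g)
    (hD : ∀ d ∈ D, ∀ p q, ‖F (d * p) - F (d * q)‖ = ‖F p - F q‖) : ∃ ψ : G → G → ℝ, CNDKer ψ ∧
      (∀ c ∈ Cen x, ∀ p q, ψ (c * p) (c * q) = ψ p q) ∧ (∀ g p, ψ (p * g) p ≤ K g ^ 2) ∧
      ∀ (r : ℝ) (p : G), 0 ≤ r →
        (∀ p', p'⁻¹ * x * p' = p⁻¹ * x * p → r ≤ ‖F (x * p') - F p'‖) →
          r ^ 2 ≤ ψ (x * p) p := by
  obtain ⟨m, hadd, hpos, hconst, hinv⟩ := hm
  have hK0 : ∀ g, 0 ≤ K g := fun g => (norm_nonneg _).trans (hK g 1)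
  set f : G → G → G → ℝ := fun p q c => ‖F (c * p) - F (c * q)‖ ^ 2 with hf
  have hbi : ∀ p q, BddInv (Cen x) D (f p q) := by
    intro p q
    refine ⟨⟨K (q⁻¹ * p) ^ 2, fun c _ => ?_⟩, fun d hd c _ => ?_⟩
    · have h := hK (q⁻¹ * p) (c * q)
      have e : c * q * (q⁻¹ * p) = c * p := by group
      rw [e] at h
      rw [hf, abs_of_nonneg (by positivity)]
      exact pow_le_pow_left₀ (norm_nonneg _) h 2
    · simp only [hf]
      rw [mul_assoc, mul_assoc, hD d hd]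
  have hcomm : ∀ c ∈ Cen x, c * x = x * c := by
    intro c hc
    exact (Subgroup.mem_centralizer_singleton_iff.1 hc).symm ▸ rfl
  refine ⟨fun p q => m (f p q), ⟨?_, ?_, ?_⟩, ?_, ?_, ?_⟩
  · intro p q
    have : f p q = f q p := by
      funext c; simp only [hf]; rw [norm_sub_rev]
    simp only [this]
  · intro p
    have : f p p = fun _ => (0 : ℝ) := by
      funext c; simp [hf]
    simp only [this, hconst]
  · intro s c hc
    have e : ∑ p ∈ s, ∑ q ∈ s, c p * c q * m (f p q) =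
        m (fun g => ∑ p ∈ s, ∑ q ∈ s, c p * c q * f p q g) := by
      rw [m_sum hadd hconst s fun p _ => bi_sum s fun q _ => bi_smul (c p * c q) (hbi p q)]
      refine Finset.sum_congr rfl fun p _ => ?_
      rw [m_sum hadd hconst s fun q _ => bi_smul (c p * c q) (hbi p q)]
      exact Finset.sum_congr rfl fun q _ => (m_smul hadd hpos hconst (hbi p q) _).symm
    rw [e]
    have h0 := hconst 0
    rw [← h0]
    refine m_mono hadd hpos (bi_sum s fun p _ => bi_sum s fun q _ =>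
      bi_smul (c p * c q) (hbi p q)) (bi_const 0) fun g _ => ?_
    simp only [hf]
    rw [cnd_dist (fun p => F (g * p)) s c hc]
    have : 0 ≤ ‖∑ p ∈ s, c p • F (g * p)‖ ^ 2 := by positivity
    linarith
  · intro c hc p q
    have : f (c * p) (c * q) = fun g => f p q (g * c) := by
      funext g; simp only [hf, mul_assoc]
    simp only [this]
    exact hinv _ (hbi p q) c hc
  · intro g p
    have h0 := hconst (K g ^ 2)
    simp only
    rw [← h0]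
    refine m_mono hadd hpos (hbi _ _) (bi_const _) fun c _ => ?_
    simp only [hf, ← mul_assoc]
    exact pow_le_pow_left₀ (norm_nonneg _) (hK g (c * p)) 2
  · intro r p hr h
    have h0 := hconst (r ^ 2)
    simp only
    rw [← h0]
    refine m_mono hadd hpos (bi_const _) (hbi _ _) fun c hc => ?_
    simp only [hf]
    have h1 := h (c * p) (by
      rw [mul_inv_rev]
      calc p⁻¹ * c⁻¹ * x * (c * p) = p⁻¹ * (c⁻¹ * (x * c)) * p := by group
        _ = p⁻¹ * (c⁻¹ * (c * x)) * p := by rw [hcomm c hc]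
        _ = p⁻¹ * x * p := by group)
    have e : c * (x * p) = x * (c * p) := by
      rw [← mul_assoc, hcomm c hc, mul_assoc]
    rw [e]
    exact pow_le_pow_left₀ hr h1 2

theorem kerD {G : Type u} [Group G] (x : G) (D : Subgroup G) (hm : CoAmenable (Cen x) D)
    {H : Type v} [NormedAddCommGroup H] [InnerProductSpace ℝ H] (F : G → H) (K : G → ℝ)
    (hF : ∀ g p, ‖F (p * g) - F p‖ ≤ K g)
    (hD : ∀ d ∈ D, ∀ p q, ‖F (d * p) - F (d * q)‖ = ‖F p - F q‖) :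
    ∃ (E : Type u) (_ : NormedAddCommGroup E) (_ : InnerProductSpace ℝ E) (f : G → E),
      (∀ c ∈ Cen x, ∀ p q, ‖f (c * p) - f (c * q)‖ = ‖f p - f q‖) ∧
      (∀ (j : ℕ) (p : G), ‖f (x ^ (2 ^ j) * p) - f p‖ ^ 2 ≤ j + ‖f (x * p) - f p‖ ^ 2) ∧
      (∀ g p, ‖f (p * g) - f p‖ ≤ 2 * K g) ∧
      ∀ (M : ℕ) (p : G), (∀ p', p'⁻¹ * x * p' = p⁻¹ * x * p →
        (2 : ℝ) ^ (2 * M ^ 2) ≤ ‖F (x * p') - F p'‖) → (M : ℝ) ≤ ‖f (x * p) - f p‖ := by
  have hR := Vale.Agent.P184.H236.realize.{u}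
  have hG := Vale.Agent.P184.H236.ggStmt
  have hK := Vale.Agent.P184.H236.ggKer.{u}
  obtain ⟨ψ, hψ, hinv, hup, hlow⟩ := meanKerD x D hm F K hF hD
  obtain ⟨hg1, hg2, hg3⟩ := hG
  have hK0 : ∀ g, 0 ≤ K g := fun g => (norm_nonneg _).trans (hF g 1)
  obtain ⟨E, _, _, f, hf⟩ := hR G _ (hK G ψ hψ)
  obtain ⟨E₀, _, _, f₀, hf₀⟩ := hR G ψ hψ
  have hψ0 : ∀ p q, 0 ≤ ψ p q := fun p q => by rw [← hf₀]; positivity
  have hxn : ∀ n : ℕ, x ^ n ∈ Cen x := by
    intro n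
    rw [Cen, Subgroup.mem_centralizer_singleton_iff]
    exact (Commute.refl x).pow_left n |>.eq.symm ▸ rfl
  have hdouble : ∀ (n : ℕ) (p : G), ψ (x ^ (2 * n) * p) p ≤ 4 * ψ (x ^ n * p) p := by
    intro n p
    have h1 : ‖f₀ (x ^ (2 * n) * p) - f₀ (x ^ n * p)‖ = ‖f₀ (x ^ n * p) - f₀ p‖ := by
      have e := hinv (x ^ n) (hxn n) (x ^ n * p) p
      rw [← hf₀, ← hf₀, ← mul_assoc, ← pow_add, ← two_mul] at e
      exact (pow_left_inj₀ (norm_nonneg _) (norm_nonneg _) two_ne_zero).1 e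
    have h2 : ‖f₀ (x ^ (2 * n) * p) - f₀ p‖ ≤ 2 * ‖f₀ (x ^ n * p) - f₀ p‖ := by
      calc ‖f₀ (x ^ (2 * n) * p) - f₀ p‖ ≤ ‖f₀ (x ^ (2 * n) * p) - f₀ (x ^ n * p)‖ +
            ‖f₀ (x ^ n * p) - f₀ p‖ := norm_sub_le_norm_sub_add_norm_sub _ _ _
        _ = 2 * ‖f₀ (x ^ n * p) - f₀ p‖ := by rw [h1]; ring
    rw [← hf₀, ← hf₀]
    calc ‖f₀ (x ^ (2 * n) * p) - f₀ p‖ ^ 2 ≤ (2 * ‖f₀ (x ^ n * p) - f₀ p‖) ^ 2 :=
          pow_le_pow_left₀ (norm_nonneg _) h2 2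
      _ = 4 * ‖f₀ (x ^ n * p) - f₀ p‖ ^ 2 := by ring
  refine ⟨E, inferInstance, inferInstance, f, ?_, ?_, ?_, ?_⟩
  · intro c hc p q
    refine (pow_left_inj₀ (norm_nonneg _) (norm_nonneg _) two_ne_zero).1 ?_
    rw [hf, hf, hinv c hc]
  · intro j p
    rw [hf, hf]
    induction j with
    | zero => simp
    | succ j ih =>
      have h1 : gg (ψ (x ^ (2 ^ (j + 1)) * p) p) ≤ gg (4 * ψ (x ^ (2 ^ j) * p) p) := by
        refine hg2 _ _ (hψ0 _ _) ?_
        rw [pow_succ' 2 j]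
        exact hdouble _ _
      have h2 := (hg1 _ (hψ0 (x ^ (2 ^ j) * p) p)).2.2
      push_cast
      linarith
  · intro g p
    have h1 : ‖f (p * g) - f p‖ ^ 2 ≤ (2 * K g) ^ 2 := by
      rw [hf]
      have h2 := (hg1 _ (hψ0 (p * g) p)).2.1
      have h3 := hup g p
      nlinarith [sq_nonneg (K g)]
    exact (pow_le_pow_iff_left₀ (norm_nonneg _) (mul_nonneg zero_le_two (hK0 g)) two_ne_zero).1 h1
  · intro M p h
    have h1 := hlow ((2 : ℝ) ^ (2 * M ^ 2)) p (by positivity) h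
    have h2 : (4 : ℝ) ^ (2 * M ^ 2) ≤ ψ (x * p) p := by
      calc (4 : ℝ) ^ (2 * M ^ 2) = ((2 : ℝ) ^ (2 * M ^ 2)) ^ 2 := by
            rw [← pow_mul, mul_comm (2 * M ^ 2) 2, pow_mul 2 2]; norm_num
        _ ≤ _ := h1
    have h3 := hg3 M _ h2
    rw [← hf] at h3
    exact (pow_le_pow_iff_left₀ (Nat.cast_nonneg M) (norm_nonneg _) two_ne_zero).1 h3

end Vale.Agent.P184F
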