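import Vale.Agent.P184.H38C.Core
import Vale.Agent.P184.H70.Lit2

/-!
# Pull back of the data along homomorphisms
-/

namespace Vale.Agent.P184F

open Vale.Agent.P184.Un Vale.Agent.P184.H70 Vale.Agent.P184.H38C

universe u v

theorem coAmenable_mono' {G : Type*} [Group G] {C D D' : Subgroup G} (h : D ≤ D')
    (hC : CoAmenable C D) : CoAmenable C D' := by
  obtain ⟨m, h1, h2, h3, h4⟩ := hC
  have hb : ∀ f : G → ℝ, BddInv C D' f → BddInv C D f := fun f hf =>
    ⟨hf.1, fun d hd c hc => hf.2 d (h hd) c hc⟩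
  exact ⟨m, fun f g hf hg => h1 f g (hb f hf) (hb g hg), fun f hf h0 => h2 f (hb f hf) h0, h3,
    fun f hf k hk => h4 f (hb f hf) k hk⟩

/-- The preimage of the powers of `g y` is coamenable in the centralizer of `y`, if the
centralizer of `g y` is amenable. -/
theorem coAmenable_pull {H G : Type*} [Group H] [Group G] (g : H →* G) (y : H)
    (hC : CoAmenable (Cen (g y)) ⊥) :
    CoAmenable (Cen y) ((Subgroup.zpowers (g y)).comap g ⊓ Cen y) := by
  have hA : Vale.Agent.P184.IsAmenable (Cen (g y)) :=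
    Vale.Agent.P184.V.isAmenable_of_coAmenable_bot (G := G) (C := Cen (g y)) hC
  let φ : Cen y →* Cen (g y) := (g.comp (Cen y).subtype).codRestrict (Cen (g y)) fun c => by
    have h1 := mem_cen.1 c.2
    rw [mem_cen]
    change g y * g c = g c * g y
    rw [← map_mul, ← map_mul, h1]
  let Z : Subgroup (Cen (g y)) := Subgroup.zpowers ⟨g y, self_mem_cen (g y)⟩
  have hZ : Z.Normal := by
    refine ⟨fun n hn c => ?_⟩
    have h5 : c * n * c⁻¹ = n := by
      obtain ⟨k, rfl⟩ := hn
      simp only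
      have h6 : Commute c (⟨g y, self_mem_cen (g y)⟩ : Cen (g y)) :=
        Subtype.ext (mem_cen.1 c.2).symm
      rw [(h6.zpow_right k).eq, mul_inv_cancel_right]
    rw [h5]
    exact hn
  let ψ : Cen y →* Cen (g y) ⧸ Z := (QuotientGroup.mk' Z).comp φ
  have h1 : Vale.Agent.P184.IsAmenable (Cen (g y) ⧸ Z) :=
    Vale.Agent.P184.IsAmenable.of_surjective (QuotientGroup.mk' Z)
      (QuotientGroup.mk'_surjective Z) hA
  have h2 : Vale.Agent.P184.IsAmenable (Cen y ⧸ ψ.ker) :=
    Vale.Agent.P184.isAmenable_of_injective (QuotientGroup.kerLift ψ)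
      (QuotientGroup.kerLift_injective ψ) h1
  have h3 : CoAmenable (Cen y) (ψ.ker.map (Cen y).subtype) :=
    Vale.Agent.P184.V.amenable_coAmenable (C := Cen y) ψ.ker h2
  refine coAmenable_mono' ?_ h3
  rintro _ ⟨c, hc, rfl⟩
  refine ⟨?_, c.2⟩
  have h4 : φ c ∈ Z := by
    rw [← QuotientGroup.eq_one_iff]
    exact hc
  obtain ⟨k, hk⟩ := h4
  refine ⟨k, ?_⟩
  have h5 := congrArg (Subtype.val) hk
  have h6 : g y ^ k = ((φ c : Cen (g y)) : G) := by simpa using h5
  exact h6

/-- Pull back of the data. -/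
theorem fd_pull (hKer : KerStmt.{u, 0}) {H G : Type u} [Group H] [Group G] (g : H →* G) (y : H)
    (hy : ¬ IsOfFinOrder (g y)) (hE : HilbEmb G) (hC : CoAmenable (Cen (g y)) ⊥)
    (S : Finset H) : ∃ κ : ℝ, ∀ δ : ℝ, 0 < δ → ∀ M : ℕ, Fd.{u} y S κ δ M := by
  classical
  obtain ⟨H₀, _, _, F, hF1, hF2⟩ := hE
  choose K hK1 using hF1
  obtain ⟨κ, hκ⟩ := (S.image fun s => 2 * K (g s)).exists_le
  refine ⟨κ, fun δ hδ M => ?_⟩
  obtain ⟨E, _, _, f, f1, f2, f3, f4⟩ := hKer G (g y) hC H₀ F K fun a p => hK1 a p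
  set r : ℝ := 2 ^ (2 * (3 * M) ^ 2) with hr
  set Ec : Set G := {e | ∃ p, ‖F (p * e) - F p‖ ≤ r} with hEc
  have hfin : Ec.Finite := hF2 r
  have hcore : ∀ p : G, ‖f (g y * p) - f p‖ < 3 * M → p⁻¹ * g y * p ∈ Ec := by
    intro p hp
    by_contra hne
    have h1 := f4 (3 * M) p fun p' hp' => by
      by_contra hlt
      push Not at hlt
      apply hne
      refine ⟨p', ?_⟩
      have h2 : p' * (p⁻¹ * g y * p) = g y * p' := by rw [← hp']; group
      rw [h2]
      exact hlt.le
    push_cast at h1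
    linarith
  obtain ⟨n, ζ, u, c1, c2, c3, c4, c5⟩ := core G (g y) hy hC Ec (S.image g) δ hfin hδ
  have hinv : ∀ (a : G) (p : G), Commute a (g y) → (a * p)⁻¹ * g y * (a * p) = p⁻¹ * g y * p := by
    intro a p ha
    calc (a * p)⁻¹ * g y * (a * p) = p⁻¹ * (a⁻¹ * (g y * a)) * p := by group
      _ = p⁻¹ * (a⁻¹ * (a * g y)) * p := by rw [ha.eq]
      _ = _ := by group
  have hzu : ∀ (k : ℤ) p, p⁻¹ * g y * p ∈ Ec → ∀ j, u (g y ^ k * p) j = ζ j ^ k * u p j := by
    have hn : ∀ (k : ℕ) p, p⁻¹ * g y * p ∈ Ec → ∀ j, u (g y ^ k * p) j = ζ j ^ k * u p j := by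
      intro k
      induction k with
      | zero => intro p _ j; simp only [pow_zero, one_mul]
      | succ k ih =>
        intro p hp j
        rw [pow_succ, mul_assoc, ih _ (by rw [hinv _ _ (Commute.refl _)]; exact hp), c3 p hp,
          pow_succ, mul_assoc]
    intro k p hp j
    obtain ⟨m, rfl | rfl⟩ := k.eq_nat_or_neg
    · rw [zpow_natCast, zpow_natCast, hn m p hp]
    · have h5 := hn m (g y ^ (-(m : ℤ)) * p)
        (by rw [hinv _ _ ((Commute.refl (g y)).zpow_left _)]; exact hp) j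
      rw [← mul_assoc, zpow_neg, zpow_natCast, mul_inv_cancel, one_mul] at h5
      have h6 : ζ j ≠ 0 := fun h => by
        have := c1 j
        rw [h, norm_zero] at this
        exact zero_ne_one this
      rw [zpow_neg, zpow_natCast, zpow_neg, zpow_natCast, h5,
        inv_mul_cancel_left₀ (pow_ne_zero _ h6)]
  have hfx : ∀ p : H, f (g (y * p)) - f (g p) = f (g y * g p) - f (g p) := fun p => by
    rw [map_mul]
  refine ⟨(Subgroup.zpowers (g y)).comap g ⊓ Cen y, n,
    fun d j => if h : ∃ k : ℤ, g y ^ k = g d then ζ j ^ h.choose else 1, fun p => u (g p), E,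
    inferInstance, inferInstance, fun p => f (g p), ⟨?_, self_mem_cen y⟩, inf_le_right,
    coAmenable_pull g y hC, ?_, ?_, ?_, ?_, ?_, ?_, ?_, ?_⟩
  · exact Subgroup.mem_comap.2 (Subgroup.mem_zpowers _)
  · intro d _ j
    beta_reduce
    split_ifs with h
    · rw [norm_zpow, c1, one_zpow]
    · exact norm_one
  · intro j
    have h : ∃ k : ℤ, g y ^ k = g y := ⟨1, zpow_one _⟩
    beta_reduce
    rw [dif_pos h]
    have h1 : h.choose = 1 := by
      refine (injective_zpow_iff_not_isOfFinOrder.2 hy) ?_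
      change g y ^ h.choose = g y ^ (1 : ℤ)
      rw [zpow_one]
      exact h.choose_spec
    rw [h1, zpow_one]
    exact c2 j
  · intro d hd p q
    beta_reduce
    rw [map_mul, map_mul]
    refine f1 _ ?_ _ _
    have h1 := mem_cen.1 hd.2
    rw [mem_cen, ← map_mul, ← map_mul, h1]
  · intro j p
    have h1 := f2 j (g p)
    beta_reduce
    rw [map_mul, map_mul, map_pow]
    exact h1
  · intro s hs p
    beta_reduce
    rw [map_mul]
    exact (f3 (g s) (g p)).trans (hκ _ (Finset.mem_image_of_mem _ hs))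
  · intro d hd p hp j
    beta_reduce at hp ⊢
    rw [map_mul] at hp
    obtain ⟨k, hk⟩ := hd.1
    have h : ∃ k : ℤ, g y ^ k = g d := ⟨k, hk⟩
    rw [dif_pos h, map_mul]
    have h1 := hzu h.choose (g p) (hcore _ hp) j
    rwa [h.choose_spec] at h1
  · intro p hp
    beta_reduce at hp ⊢
    rw [map_mul] at hp
    exact c4 _ (hcore _ hp)
  · intro p hp s hs hps
    beta_reduce at hp hps ⊢
    rw [map_mul] at hp
    rw [map_mul, map_mul] at hps
    rw [map_mul]
    exact c5 _ (hcore _ hp) (g s) (Finset.mem_image_of_mem g hs) (hcore _ hps)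

end Vale.Agent.P184F
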