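import Vale.Agent.P184.H38C.UV
import Vale.Agent.P184.H70.Fld

/-!
# Pull back of the data along homomorphisms, with finitely many exceptional classes
-/

namespace Vale.Agent.P184F

open Vale.Agent.P184.Un Vale.Agent.P184.H70 Vale.Agent.P184.H38C Vale.Agent.P184.H57

universe u v

/-- Pull back of the data, with finitely many exceptional classes. -/
theorem fd_pull' (hKer : KerStmt.{u, 0}) {H G : Type u} [Group H] [Group G] (g : H →* G)
    (hE : HilbEmb G) (S : Finset H) : ∃ κ : ℝ, ∀ δ : ℝ, 0 < δ → ∀ M : ℕ, ∃ B : Finset G,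
      ∀ y : H, CoAmenable (Cen (g y)) ⊥ → (¬ IsOfFinOrder (g y) ∨ ∀ b ∈ B, ¬ IsConj b (g y)) →
        Fd.{u} y S κ δ M := by
  classical
  obtain ⟨H₀, _, _, F, hF1, hF2⟩ := hE
  choose K hK1 using hF1
  obtain ⟨κ, hκ⟩ := (S.image fun s => 2 * K (g s)).exists_le
  refine ⟨κ, fun δ hδ M => ?_⟩
  set r : ℝ := 2 ^ (2 * (3 * M) ^ 2) with hr
  set Ec : Set G := {e | ∃ p, ‖F (p * e) - F p‖ ≤ r} with hEc
  have hfin : Ec.Finite := hF2 r
  refine ⟨hfin.toFinset, fun y hC hy => ?_⟩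
  obtain ⟨E, _, _, f, f1, f2, f3, f4⟩ := hKer G (g y) hC H₀ F K fun a p => hK1 a p
  have hcore : ∀ p : G, ‖f (g y * p) - f p‖ < 3 * M → p⁻¹ * g y * p ∈ Ec := by
    intro p hp
    by_contra hne
    have h1 := f4 (3 * M) p fun p' hp' => by
      by_contra hlt
      push Not at hlt
      apply hne
      refine ⟨p', ?_⟩
      have h2 : p' * (p⁻¹ * g y * p) = g y * p' := by rw [← hp']; group
      rw [h2]
      exact hlt.le
    push_cast at h1
    linarith
  obtain ⟨n, ζ, u, c0, c1, c2, c3, c4, c5⟩ : ∃ (n : ℕ) (ζ : Fin n → ℂ) (u : G → Fin n → ℂ),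
      (∀ _ : Fin n, ¬ IsOfFinOrder (g y)) ∧ (∀ j, ‖ζ j‖ = 1) ∧ (∀ j, ζ j ≠ 1) ∧
      (∀ p, p⁻¹ * g y * p ∈ Ec → ∀ j, u (g y * p) j = ζ j * u p j) ∧
      (∀ p, p⁻¹ * g y * p ∈ Ec → ∑ j, ‖u p j‖ ^ 2 = 1) ∧
      ∀ p, p⁻¹ * g y * p ∈ Ec → ∀ s ∈ S.image g, (p * s)⁻¹ * g y * (p * s) ∈ Ec →
        ∑ j, ‖u (p * s) j - u p j‖ ^ 2 ≤ δ ^ 2 := by
    rcases hy with hy | hy
    · obtain ⟨n, ζ, u, h⟩ := core G (g y) hy hC Ec (S.image g) δ hfin hδ
      exact ⟨n, ζ, u, fun _ => hy, h⟩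
    · have hno : ∀ p, p⁻¹ * g y * p ∉ Ec := fun p hp =>
        hy _ (hfin.mem_toFinset.2 hp) (isConj_iff.2 ⟨p, by group⟩)
      exact ⟨0, fun j => j.elim0, fun _ j => j.elim0, fun j => j.elim0, fun j => j.elim0,
        fun j => j.elim0, fun p hp => absurd hp (hno p), fun p hp => absurd hp (hno p),
        fun p hp => absurd hp (hno p)⟩
  have hinv : ∀ (a : G) (p : G), Commute a (g y) → (a * p)⁻¹ * g y * (a * p) = p⁻¹ * g y * p := by
    intro a p ha
    calc (a * p)⁻¹ * g y * (a * p) = p⁻¹ * (a⁻¹ * (g y * a)) * p := by group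
      _ = p⁻¹ * (a⁻¹ * (a * g y)) * p := by rw [ha.eq]
      _ = _ := by group
  have hzu : ∀ (k : ℤ) p, p⁻¹ * g y * p ∈ Ec → ∀ j, u (g y ^ k * p) j = ζ j ^ k * u p j := by
    have hn : ∀ (k : ℕ) p, p⁻¹ * g y * p ∈ Ec → ∀ j, u (g y ^ k * p) j = ζ j ^ k * u p j := by
      intro k
      induction k with
      | zero => intro p _ j; simp only [pow_zero, one_mul]
      | succ k ih =>
        intro p hp j
        rw [pow_succ, mul_assoc, ih _ (by rw [hinv _ _ (Commute.refl _)]; exact hp), c3 p hp,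
          pow_succ, mul_assoc]
    intro k p hp j
    obtain ⟨m, rfl | rfl⟩ := k.eq_nat_or_neg
    · rw [zpow_natCast, zpow_natCast, hn m p hp]
    · have h5 := hn m (g y ^ (-(m : ℤ)) * p)
        (by rw [hinv _ _ ((Commute.refl (g y)).zpow_left _)]; exact hp) j
      rw [← mul_assoc, zpow_neg, zpow_natCast, mul_inv_cancel, one_mul] at h5
      have h6 : ζ j ≠ 0 := fun h => by
        have := c1 j
        rw [h, norm_zero] at this
        exact zero_ne_one this
      rw [zpow_neg, zpow_natCast, zpow_neg, zpow_natCast, h5,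
        inv_mul_cancel_left₀ (pow_ne_zero _ h6)]
  refine ⟨(Subgroup.zpowers (g y)).comap g ⊓ Cen y, n,
    fun d j => if h : ∃ k : ℤ, g y ^ k = g d then ζ j ^ h.choose else 1, fun p => u (g p), E,
    inferInstance, inferInstance, fun p => f (g p), ⟨?_, self_mem_cen y⟩, inf_le_right,
    coAmenable_pull g y hC, ?_, ?_, ?_, ?_, ?_, ?_, ?_, ?_⟩
  · exact Subgroup.mem_comap.2 (Subgroup.mem_zpowers _)
  · intro d _ j
    beta_reduce
    split_ifs with h
    · rw [norm_zpow, c1, one_zpow]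
    · exact norm_one
  · intro j
    have h : ∃ k : ℤ, g y ^ k = g y := ⟨1, zpow_one _⟩
    beta_reduce
    rw [dif_pos h]
    have h1 : h.choose = 1 := by
      refine (injective_zpow_iff_not_isOfFinOrder.2 (c0 j)) ?_
      change g y ^ h.choose = g y ^ (1 : ℤ)
      rw [zpow_one]
      exact h.choose_spec
    rw [h1, zpow_one]
    exact c2 j
  · intro d hd p q
    beta_reduce
    rw [map_mul, map_mul]
    refine f1 _ ?_ _ _
    have h1 := mem_cen.1 hd.2
    rw [mem_cen, ← map_mul, ← map_mul, h1]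
  · intro j p
    have h1 := f2 j (g p)
    beta_reduce
    rw [map_mul, map_mul, map_pow]
    exact h1
  · intro s hs p
    beta_reduce
    rw [map_mul]
    exact (f3 (g s) (g p)).trans (hκ _ (Finset.mem_image_of_mem _ hs))
  · intro d hd p hp j
    beta_reduce at hp ⊢
    rw [map_mul] at hp
    obtain ⟨k, hk⟩ := hd.1
    have h : ∃ k : ℤ, g y ^ k = g d := ⟨k, hk⟩
    rw [dif_pos h, map_mul]
    have h1 := hzu h.choose (g p) (hcore _ hp) j
    rwa [h.choose_spec] at h1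
  · intro p hp
    beta_reduce at hp ⊢
    rw [map_mul] at hp
    exact c4 _ (hcore _ hp)
  · intro p hp s hs hps
    beta_reduce at hp hps ⊢
    rw [map_mul] at hp
    rw [map_mul, map_mul] at hps
    rw [map_mul]
    exact c5 _ (hcore _ hp) (g s) (Finset.mem_image_of_mem g hs) (hcore _ hps)

/-- The traces of an idempotent vanish at `y`, if the image of `y` under a homomorphism to a
group, which embeds coarsely in a Hilbert space, has amenable centralizer and is of infinite order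
or outside finitely many classes. -/
theorem exists_exc_hilb {H : Type u} [Group H] {q : ℕ} (e : Mat H q) (he : IsIdem e)
    {L : Type u} [Group L] (g : H →* L) (hE : HilbEmb L) : ∃ B : Finset L, ∀ y : H,
      CoAmenable (Cen (g y)) ⊥ → (¬ IsOfFinOrder (g y) ∨ ∀ b ∈ B, ¬ IsConj b (g y)) →
        tau (ConjClasses.mk y) e = 0 := by
  obtain ⟨S, _, _, h⟩ := data.{u, u} H q e he
  obtain ⟨κ, hκ⟩ := fd_pull' kerStmt g hE S
  obtain ⟨δ, hδ, M, hM⟩ := h κ
  obtain ⟨B, hB⟩ := hκ δ hδ M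
  exact ⟨B, fun y h1 h2 => hM y (hB y h1 h2)⟩

/-- [MAIN] -/
theorem main : MainStmt.{u} := fun _ _ hE _ e he => exists_exc_hilb e he (MonoidHom.id _) hE

/-- The same for property A. -/
theorem exists_exc_exact {H : Type u} [Group H] {q : ℕ} (e : Mat H q) (he : IsIdem e)
    {L : Type u} [Group L] (g : H →* L) (hA : PropertyA L) : ∃ B : Finset L, ∀ y : H,
      (¬ IsOfFinOrder (g y) ∨ ∀ b ∈ B, ¬ IsConj b (g y)) → tau (ConjClasses.mk y) e = 0 := by
  classical
  obtain ⟨S, ε, hε, h⟩ := tau_eq_zero_of_FData' e he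
  obtain ⟨F, hF⟩ := Vale.Agent.P184.H191.exists_FData' hA (S.image g) hε
  refine ⟨F, fun y hy => ?_⟩
  obtain ⟨D⟩ := hF (g y) (hy.imp id fun h1 b hb hbc => h1 b hb hbc.symm)
  exact h y (FData.pull g S D)

/-- The two cases together. -/
theorem exists_exc {H : Type u} [Group H] {q : ℕ} (e : Mat H q) (he : IsIdem e)
    {L : Type u} [Group L] (g : H →* L) : ∃ B : Finset L, ∀ y : H,
      (PropertyA L ∨ HilbEmb L ∧ CoAmenable (Cen (g y)) ⊥) →
      (¬ IsOfFinOrder (g y) ∨ ∀ b ∈ B, ¬ IsConj b (g y)) → tau (ConjClasses.mk y) e = 0 := by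
  by_cases hA : PropertyA L
  · obtain ⟨B, hB⟩ := exists_exc_exact e he g hA
    exact ⟨B, fun y _ => hB y⟩
  by_cases hE : HilbEmb L
  · obtain ⟨B, hB⟩ := exists_exc_hilb e he g hE
    exact ⟨B, fun y h1 h2 => hB y (h1.elim (fun h => absurd h hA) fun h => h.2) h2⟩
  · exact ⟨∅, fun y h1 => h1.elim (fun h => absurd h hA) fun h => absurd h.1 hE⟩

end Vale.Agent.P184F
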