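import Vale.Agent.P184.H38C.Pull2
import Vale.Agent.P184.H38C.GDefs

/-!
# The universal form of the `ℓ¹`-Bass conjecture
-/

namespace Vale.Agent.P184F

open Vale.Agent.P184.Un Vale.Agent.P184.H70 Vale.Agent.P184.H38C Vale.Agent.P184.H57

universe u v

theorem UBass.l1Bass {G : Type u} [Group G] (h : UBass G) : L1Bass G := by
  classical
  intro q e he
  obtain ⟨B, hB1, hB2⟩ := h G (MonoidHom.id G) q e he
  refine ⟨B.image ConjClasses.mk, fun C hC g hg => ?_, fun C hC => ?_⟩
  · obtain ⟨b, hb, rfl⟩ := Finset.mem_image.1 hC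
    rw [ConjClasses.mem_carrier_iff_mk_eq, ConjClasses.mk_eq_mk_iff_isConj] at hg
    exact hg.symm.isOfFinOrder (hB1 b hb)
  · obtain ⟨x, rfl⟩ := ConjClasses.mk_surjective C
    exact hB2 x fun b hb hbx =>
      hC (Finset.mem_image.2 ⟨b, hb, ConjClasses.mk_eq_mk_iff_isConj.2 hbx⟩)

theorem uBass_of_propertyA {G : Type u} [Group G] (hA : PropertyA G) : UBass G := by
  classical
  intro H _ g q e he
  obtain ⟨B, hB⟩ := exists_exc_exact e he g hA
  refine ⟨B.filter IsOfFinOrder, fun b hb => (Finset.mem_filter.1 hb).2, fun y hy => hB y ?_⟩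
  by_cases h : IsOfFinOrder (g y)
  · refine Or.inr fun b hb hby => hy b (Finset.mem_filter.2 ⟨hb, ?_⟩) hby
    exact hby.symm.isOfFinOrder h
  · exact Or.inl h

/-- The elements of infinite order are locally detected, and for all `S` and `δ` the elements of
finite order of the subgroup generated by `S` satisfy `SlowAt`, or `G` embeds coarsely in a
Hilbert space and their centralizer is amenable, up to finitely many conjugacy classes. -/
def HilbNice (G : Type u) [Group G] : Prop :=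
  (∀ x : G, ¬ IsOfFinOrder x → LocHDet x) ∧
    ∀ (S : Finset G) (δ : ℝ), 0 < δ → ∃ B : Finset G, ∀ x ∈ Subgroup.closure (S : Set G),
      IsOfFinOrder x → SlowAt x S δ ∨ (Vale.Agent.P184.H70.HilbEmb G ∧ CoAmenable (Cen x) ⊥) ∨ ∃ b ∈ B, IsConj b x

theorem uBass_of_hilbNice {G : Type u} [Group G] (hG : HilbNice G) : UBass G := by
  classical
  obtain ⟨hinf, htor⟩ := hG
  intro H _ g q e he
  obtain ⟨S₁, δ, hδ, h⟩ := Vale.Agent.P184.exists_slowD_param e (idem_iff.1 he)
  obtain ⟨S₂, h2⟩ := Vale.Agent.P184.exists_support e (idem_iff.1 he)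
  obtain ⟨B₀, hB₀⟩ := exists_exc e he g
  obtain ⟨B, hB⟩ := htor ((S₁ ∪ S₂).image g) (δ ^ 2) (by positivity)
  refine ⟨(B₀ ∪ B).filter IsOfFinOrder, fun b hb => (Finset.mem_filter.1 hb).2, fun x hx => ?_⟩
  by_cases hxo : IsOfFinOrder (g x)
  · by_cases hy : ∀ y ∈ Subgroup.closure (S₂ : Set H), ¬ IsConj x y
    · exact h2 x hy
    · push Not at hy
      obtain ⟨y, hy, hxy⟩ := hy
      have hgxy : IsConj (g x) (g y) := g.map_isConj hxy
      have hyo : IsOfFinOrder (g y) := hgxy.isOfFinOrder hxo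
      have hyS : g y ∈ Subgroup.closure (((S₁ ∪ S₂).image g : Finset G) : Set G) := by
        rw [Finset.coe_image, ← MonoidHom.map_closure]
        refine Subgroup.mem_map_of_mem g (Subgroup.closure_mono ?_ hy)
        rw [Finset.coe_union]
        exact Set.subset_union_right
      have hconj : ∀ b ∈ B₀ ∪ B, ¬ IsConj b (g y) := by
        intro b hb hby
        exact hx b (Finset.mem_filter.2 ⟨hb, hby.symm.isOfFinOrder hyo⟩) (hby.trans hgxy.symm)
      rw [ConjClasses.mk_eq_mk_iff_isConj.mpr hxy]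
      rcases hB (g y) hyS hyo with h3 | h3 | ⟨b, hb, hby⟩
      · have h4 : Vale.Agent.P184.SlowD (g y) (((S₁ ∪ S₂).image g : Finset G) : Set G) δ :=
          Vale.Agent.P184.V.slowAt_iff'.1 h3
        rw [Finset.coe_image] at h4
        exact h y (Vale.Agent.P184.slowD_mono
          (by rw [Finset.coe_union]; exact Set.subset_union_left)
          (Vale.Agent.P184.slowD_hom g h4))
      · exact hB₀ y (Or.inr h3) (Or.inr fun b hb => hconj b (Finset.mem_union_left _ hb))
      · exact absurd hby (hconj b (Finset.mem_union_right _ hb))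
  · exact uvAt_of_locHDet data.{u, u} (hinf (g x) hxo) H g x rfl q e he

/-- Finite direct products. -/
theorem UBass.prod {G K : Type u} [Group G] [Group K] (hG : UBass G) (hK : UBass K) :
    UBass (G × K) := by
  classical
  intro H _ g q e he
  obtain ⟨B, hB1, hB2⟩ := hG H ((MonoidHom.fst G K).comp g) q e he
  obtain ⟨C, hC1, hC2⟩ := hK H ((MonoidHom.snd G K).comp g) q e he
  refine ⟨B ×ˢ C, fun b hb => ?_, fun y hy => ?_⟩
  · rw [Finset.mem_product] at hb
    exact (hB1 _ hb.1).prod_mk (hC1 _ hb.2)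
  · by_cases h1 : ∀ b ∈ B, ¬ IsConj b (((MonoidHom.fst G K).comp g) y)
    · exact hB2 y h1
    by_cases h2 : ∀ c ∈ C, ¬ IsConj c (((MonoidHom.snd G K).comp g) y)
    · exact hC2 y h2
    push Not at h1 h2
    obtain ⟨b, hb, hby⟩ := h1
    obtain ⟨c, hc, hcy⟩ := h2
    exfalso
    refine hy (b, c) (Finset.mem_product.2 ⟨hb, hc⟩) ?_
    obtain ⟨g1, hg⟩ := isConj_iff.mp hby
    obtain ⟨k, hk⟩ := isConj_iff.mp hcy
    exact isConj_iff.mpr ⟨(g1, k), Prod.ext hg hk⟩

/-- Homomorphisms with finite kernel, if conjugacy classes have finite preimages. -/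
theorem UBass.of_finite_ker {G K : Type u} [Group G] [Group K] (π : G →* K)
    (hπ : Function.Surjective π) (hker : (π.ker : Set G).Finite) (hK : UBass K) : UBass G := by
  classical
  intro H _ g q e he
  obtain ⟨B, hB1, hB2⟩ := hK H (π.comp g) q e he
  have hfib : ∀ b : K, {a : G | π a = b}.Finite := by
    intro b
    obtain ⟨a0, rfl⟩ := hπ b
    refine (hker.image fun k => a0 * k).subset ?_
    intro a ha
    refine ⟨a0⁻¹ * a, ?_, by group⟩
    change π (a0⁻¹ * a) = 1
    rw [map_mul, map_inv, show π a = π a0 from ha, inv_mul_cancel]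
  refine ⟨B.biUnion fun b => (hfib b).toFinset, fun a ha => ?_, fun y hy => hB2 y fun b hb hby => ?_⟩
  · obtain ⟨b, hb, hab⟩ := Finset.mem_biUnion.1 ha
    have h1 : π a = b := (hfib b).mem_toFinset.1 hab
    have h2 : IsOfFinOrder (π a) := by rw [h1]; exact hB1 b hb
    obtain ⟨n, hn, hn1⟩ := isOfFinOrder_iff_pow_eq_one.1 h2
    rw [← map_pow] at hn1
    have h3 : Finite π.ker := hker
    have h4 : IsOfFinOrder (⟨a ^ n, hn1⟩ : π.ker) := isOfFinOrder_of_finite _
    have h5 : IsOfFinOrder (a ^ n) := isOfFinOrder_subgroup.2 h4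
    exact h5.of_pow hn.ne'
  · obtain ⟨k, hk⟩ := isConj_iff.1 hby
    obtain ⟨c, rfl⟩ := hπ k
    have h1 : π (c⁻¹ * g y * c) = b := by
      rw [map_mul, map_mul, map_inv]
      change (π c)⁻¹ * (π.comp g) y * π c = b
      rw [← hk]
      group
    refine hy (c⁻¹ * g y * c) (Finset.mem_biUnion.2 ⟨b, hb, (hfib b).mem_toFinset.2 h1⟩) ?_
    exact isConj_iff.2 ⟨c, by group⟩

/-- The `ℓ¹`-Bass conjecture for limits. -/
theorem l1Bass_of_uBass_lim {G : Type u} [Group G]
    (h : ∀ S : Finset G, ∃ (H : Type v) (_ : Group H), Lifts H S ∧ UBass H) : L1Bass G :=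
  l1Bass_iffW.2 (Vale.Agent.P184.W.l1Bass_of_lifts.{u, v} fun S => by
    obtain ⟨H, _, h1, h2⟩ := h S
    exact ⟨H, inferInstance, h1, l1Bass_iffW.1 h2.l1Bass⟩)

theorem hilbNice_of_hilbAmen {G : Type u} [Group G] (h : Vale.Agent.P184.H70.HilbAmen G) : HilbNice G := by
  obtain ⟨h1, h2, h3⟩ := h
  refine ⟨fun x hx => locHDet_of_hDet ?_, fun S δ hδ => ?_⟩
  · exact (h2 x hx).elim (fun h => Or.inr h) fun h => Or.inl ⟨hx, Or.inr ⟨h1, h⟩⟩
  · obtain ⟨B, hB⟩ := h3 S δ hδ
    exact ⟨B, fun x hx hxo => (hB x hx hxo).imp id fun h => h.imp (fun h => ⟨h1, h⟩) id⟩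

end Vale.Agent.P184F
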