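import Vale.Agent.P184.H38C.Pull
import Vale.Agent.P184.H38C.Fin
import Vale.Agent.P184.H735.K2
import Vale.Agent.P184.H236.K1
import Vale.Agent.P184.Ex.LimU

/-!
# Universal vanishing for Hilbert embeddable groups
-/

namespace Vale.Agent.P184F

open Vale.Agent.P184.Un Vale.Agent.P184.H70 Vale.Agent.P184.H57

universe u v

theorem kerStmt : KerStmt.{u, v} :=
  Vale.Agent.P184.H735.ker Vale.Agent.P184.H236.realize Vale.Agent.P184.H236.ggStmt
    Vale.Agent.P184.H236.ggKer

/-- Traces vanish at all preimages of `x`, an element of infinite order with amenable centralizer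
in a group, which embeds coarsely in a Hilbert space. -/
theorem uvAt_of_hilb (hD : DataStmt.{u, u}) {G : Type u} [Group G] (hE : HilbEmb G) {x : G}
    (hx : ¬ IsOfFinOrder x) (hC : CoAmenable (Cen x) ⊥) : UVAt x := by
  intro H _ g y hy q e he
  subst hy
  obtain ⟨S, _, _, h⟩ := hD H q e he
  obtain ⟨κ, hκ⟩ := fd_pull kerStmt g y hx hE hC S
  obtain ⟨δ, hδ, M, hM⟩ := h κ
  exact hM y (hκ δ hδ M)

theorem uvAt_of_mild {G : Type u} [Group G] {x : G} (hx : Mild x) : UVAt x := by
  intro H _ g y hy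
  subst hy
  exact vanishesAt_of_mild (Vale.Agent.P184.W.mild_hom g hx)

theorem uvAt_of_propertyA {G : Type u} [Group G] (hA : PropertyA G) {x : G}
    (hx : ¬ IsOfFinOrder x) : UVAt x := by
  intro H _ g y hy
  subst hy
  exact vanishesAt_of_propertyA hA g y hx

/-- `x` is of infinite order and the group has property A, or it embeds coarsely in a Hilbert
space and the centralizer of `x` is amenable; or `x` is mild. -/
def HDet {G : Type*} [Group G] (x : G) : Prop :=
  ¬ IsOfFinOrder x ∧ (PropertyA G ∨ HilbEmb G ∧ CoAmenable (Cen x) ⊥) ∨ Mild x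

theorem uvAt_of_hDet (hD : DataStmt.{u, u}) {G : Type u} [Group G] {x : G} (h : HDet x) :
    UVAt x := by
  rcases h with ⟨h1, h2 | ⟨h2, h3⟩⟩ | h1
  · exact uvAt_of_propertyA h2 h1
  · exact uvAt_of_hilb hD h2 h1 h3
  · exact uvAt_of_mild h1

/-- For each finite set `S` there is a map to a group, multiplicative on `S`, which maps `x` to
an element as in `HDet`. -/
def LocHDet {G : Type u} [Group G] (x : G) : Prop :=
  ∀ S : Finset G, ∃ (L : Type u) (_ : Group L) (l : G → L),
    (∀ a ∈ S, ∀ b ∈ S, l (a * b) = l a * l b) ∧ HDet (l x)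

theorem uvAt_of_locHDet (hD : DataStmt.{u, u}) {G : Type u} [Group G] {x : G}
    (h : LocHDet x) : UVAt x :=
  uvAt_of_loc x fun S => by
    obtain ⟨L, _, l, h1, h2⟩ := h S
    exact ⟨L, inferInstance, l, h1, uvAt_of_hDet hD h2⟩

theorem locHDet_of_hDet {G : Type u} [Group G] {x : G} (h : HDet x) : LocHDet x :=
  fun _ => ⟨G, inferInstance, id, fun _ _ _ _ => rfl, h⟩

theorem uv_vanishesAt {G : Type u} [Group G] {x : G} (h : UVAt x) : VanishesAt x :=
  h G (MonoidHom.id G) x rfl

/-- First half of [F]. -/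
theorem vanishesAt_of_closures (hD : DataStmt.{u, u}) (G : Type u) [Group G] (x : G)
    (hx : ¬ IsOfFinOrder x)
    (h : ∀ (S : Finset G) (h : x ∈ Subgroup.closure (S : Set G)),
      HilbEmb (Subgroup.closure (S : Set G)) ∧
        CoAmenable (Cen (⟨x, h⟩ : Subgroup.closure (S : Set G))) ⊥) : VanishesAt x := by
  classical
  refine uv_vanishesAt (uvAt_of_locHDet hD (x := x) fun S => ?_)
  have hxS : x ∈ Subgroup.closure ((insert x S : Finset G) : Set G) :=
    Subgroup.subset_closure (by simp)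
  obtain ⟨h1, h2⟩ := h (insert x S) hxS
  have hS : ∀ a ∈ S, a ∈ Subgroup.closure ((insert x S : Finset G) : Set G) := fun a ha =>
    Subgroup.subset_closure (by simp [ha])
  refine ⟨Subgroup.closure ((insert x S : Finset G) : Set G), inferInstance,
    fun a => if ha : a ∈ Subgroup.closure ((insert x S : Finset G) : Set G) then ⟨a, ha⟩ else 1,
    fun a ha b hb => ?_, ?_⟩
  · beta_reduce
    rw [dif_pos (hS a ha), dif_pos (hS b hb),
      dif_pos (Subgroup.mul_mem _ (hS a ha) (hS b hb))]
    rfl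
  · beta_reduce
    rw [dif_pos hxS]
    refine Or.inl ⟨fun h3 => hx ?_, Or.inr ⟨h1, h2⟩⟩
    exact isOfFinOrder_subgroup.2 h3

/-- [F] -/
theorem fin (hM : MainStmt.{v}) (hD : DataStmt.{u, u}) : FinStmt.{u, v} :=
  ⟨fun G _ x hx h => vanishesAt_of_closures hD G x hx h, fun G _ h => l1Bass_of_lim hM G h⟩

end Vale.Agent.P184F
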